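import Mathlib.Analysis.Calculus.ContDiff.Basic
import Mathlib.Analysis.Calculus.Deriv.Basic
import Mathlib.MeasureTheory.Group.AddCircle
import Mathlib.MeasureTheory.Constructions.Pi
import Mathlib.MeasureTheory.Integral.Bochner.Basic
import Mathlib.Computability.PartrecCode

/-!
Definitions for P113: the flat torus, classical Navier-Stokes solutions, particle trajectories,
Turing machines, effective forces.
-/

open scoped ContDiff
open Set MeasureTheory

namespace Vale.Agent.P113

/-- The flat torus `(ℝ/ℤ)³`; its `volume` is the Haar probability measure. -/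
abbrev T3 : Type := Fin 3 → UnitAddCircle

/-- The covering map `ℝ³ → (ℝ/ℤ)³`. -/
def proj (y : Fin 3 → ℝ) : T3 := fun i => (y i : UnitAddCircle)

/-! ### Calculus on the torus -/

/-- The restriction of `g` to the `i`-th coordinate line through `x`. -/
def line (g : T3 → ℝ) (i : Fin 3) (x : T3) : ℝ → ℝ :=
  fun s => g (x + Pi.single i (s : UnitAddCircle))

/-- The spatial derivative `∂_i g`. -/
noncomputable def pd (i : Fin 3) (g : T3 → ℝ) : T3 → ℝ := fun x => deriv (line g i x) 0

/-- `∂_i g` exists at every point, for every `i`. -/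
def HasPartials (g : T3 → ℝ) : Prop := ∀ i x, DifferentiableAt ℝ (line g i x) 0

/-- The time derivative on `[0,T]` (one-sided at the end points). -/
noncomputable def dt (T : ℝ) (g : ℝ → T3 → ℝ) : ℝ → T3 → ℝ :=
  fun t x => derivWithin (fun s => g s x) (Icc 0 T) t

/-- Joint continuity on `[0,T] × 𝕋³`. -/
def ContOn (T : ℝ) (g : ℝ → T3 → ℝ) : Prop :=
  ContinuousOn (fun z : ℝ × T3 => g z.1 z.2) (Icc 0 T ×ˢ univ)

/-- The `i`-th component of a time dependent vector field. -/
def cpt (u : ℝ → T3 → Fin 3 → ℝ) (i : Fin 3) : ℝ → T3 → ℝ := fun t x => u t x i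

/-- `(u, p)` is a classical solution on `[0,T] × 𝕋³` of the Navier-Stokes system with viscosity
`ν`, force `f` and zero initial velocity. -/
structure IsClassical (ν : ℝ) (f : ℝ → T3 → Fin 3 → ℝ) (T : ℝ)
    (u : ℝ → T3 → Fin 3 → ℝ) (p : ℝ → T3 → ℝ) : Prop where
  time_diff : ∀ i, ∀ t ∈ Icc 0 T, ∀ x, DifferentiableWithinAt ℝ (fun s => u s x i) (Icc 0 T) t
  space_diff : ∀ i, ∀ t ∈ Icc 0 T, HasPartials (cpt u i t)
  space_diff₂ : ∀ i j, ∀ t ∈ Icc 0 T, HasPartials (pd j (cpt u i t))
  pressure_diff : ∀ t ∈ Icc 0 T, HasPartials (p t)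
  cont_u : ∀ i, ContOn T (cpt u i)
  cont_dt : ∀ i, ContOn T (dt T (cpt u i))
  cont_pd : ∀ i j, ContOn T (fun t => pd j (cpt u i t))
  cont_pd₂ : ∀ i j k, ContOn T (fun t => pd k (pd j (cpt u i t)))
  cont_p : ContOn T p
  cont_grad_p : ∀ j, ContOn T (fun t => pd j (p t))
  momentum : ∀ t ∈ Icc 0 T, ∀ x i,
    dt T (cpt u i) t x + ∑ j, u t x j * pd j (cpt u i t) x
      = - pd i (p t) x + ν * ∑ j, pd j (pd j (cpt u i t)) x + f t x i
  div_free : ∀ t ∈ Icc 0 T, ∀ x, ∑ j, pd j (cpt u j t) x = 0
  initial : ∀ x, u 0 x = 0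
  mean_zero : ∀ t ∈ Icc 0 T, ∫ x, p t x = 0

/-- The lift of a function on `ℝ × 𝕋³` to `ℝ⁴`; coordinate `0` is time. -/
def lift (g : ℝ → T3 → ℝ) : (Fin 4 → ℝ) → ℝ := fun z => g (z 0) (proj fun j => z j.succ)

/-- Smoothness (`C^∞` in time and space jointly) of a scalar function on `ℝ × 𝕋³`. -/
def Smooth (g : ℝ → T3 → ℝ) : Prop := ContDiff ℝ ∞ (lift g)

/-- `X` is a trajectory of `u` starting at `a`: it has a lift `Y` to `ℝ³` with
`Y'(t) = u(t, X(t))` for all `t ≥ 0`. -/
def IsTrajectory (u : ℝ → T3 → Fin 3 → ℝ) (a : T3) (X : ℝ → T3) : Prop :=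
  X 0 = a ∧ ∃ Y : ℝ → Fin 3 → ℝ,
    ∀ t, 0 ≤ t → X t = proj (Y t) ∧ HasDerivWithinAt Y (u t (X t)) (Ici 0) t

/-! ### Turing machines -/

/-- Head moves. -/
inductive Move
  | left
  | stay
  | right

/-- Displacement of the head. -/
def Move.shift : Move → ℤ
  | .left => -1
  | .stay => 0
  | .right => 1

/-- Numerical code of a move. -/
def Move.code : Move → ℕ
  | .left => 0
  | .stay => 1
  | .right => 2

/-- A deterministic one-tape Turing machine with states `Fin nq` and tape alphabet
`Fin (na + 1)`, the symbol `0` being the blank. -/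
structure Machine where
  nq : ℕ
  na : ℕ
  start : Fin nq
  halting : Fin nq → Bool
  δ : Fin nq → Fin (na + 1) → Fin nq × Fin (na + 1) × Move

/-- A configuration: state, two-sided tape, head position. -/
structure Cfg (M : Machine) where
  state : Fin M.nq
  tape : ℤ → Fin (M.na + 1)
  head : ℤ

/-- One step of the machine (a halting configuration is left unchanged). -/
def Machine.step (M : Machine) (c : Cfg M) : Cfg M :=
  if M.halting c.state then c else
    ⟨(M.δ c.state (c.tape c.head)).1,
      Function.update c.tape c.head (M.δ c.state (c.tape c.head)).2.1,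
      c.head + (M.δ c.state (c.tape c.head)).2.2.shift⟩

/-- The initial configuration: the word `w` in cells `0, 1, …`, blanks elsewhere, head on `0`. -/
def Machine.init (M : Machine) (w : List (Fin (M.na + 1))) : Cfg M :=
  ⟨M.start, fun n => if 0 ≤ n then w.getD n.toNat 0 else 0, 0⟩

/-- `M` reaches a halting state on input `w` after finitely many steps, possibly none. -/
def Machine.Halts (M : Machine) (w : List (Fin (M.na + 1))) : Prop :=
  ∃ n : ℕ, M.halting (M.step^[n] (M.init w)).state = true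

/-- Finite descriptions of pairs (machine, input). -/
abbrev PairCode : Type := (ℕ × ℕ × ℕ × List Bool × List (List (ℕ × ℕ × ℕ))) × List ℕ

/-- The description of `(M, w)`: number of states, largest symbol, start state, the list of
halting flags, the transition table, and the input word. -/
def Machine.describe (M : Machine) (w : List (Fin (M.na + 1))) : PairCode :=
  ((M.nq, M.na, M.start.val, List.ofFn M.halting,
    List.ofFn fun q => List.ofFn fun a =>
      ((M.δ q a).1.val, (M.δ q a).2.1.val, (M.δ q a).2.2.code)),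
   w.map Fin.val)

/-! ### Effectivity -/

/-- The pair `(p, q)` names the rational number `p / (q + 1)`. -/
noncomputable def ratVal (r : ℤ × ℕ) : ℝ := (r.1 : ℝ) / ((r.2 : ℝ) + 1)

/-- A real number is computable if an algorithm returns rational approximations to within
`1 / (k + 1)`. -/
def ComputableReal (ν : ℝ) : Prop :=
  ∃ a : ℕ → ℤ × ℕ, Computable a ∧ ∀ k : ℕ, |ratVal (a k) - ν| ≤ 1 / ((k : ℝ) + 1)

/-- The program `c`, run on (the code of) `a`, halts with output (the code of) `b`. -/
def Runs {α β : Type} [Primcodable α] [Primcodable β] (c : Nat.Partrec.Code) (a : α) (b : β) :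
    Prop :=
  Encodable.encode b ∈ c.eval (Encodable.encode a)

/-- The derivative in the `j`-th coordinate of `ℝ⁴`. -/
noncomputable def coordDeriv (j : Fin 4) (F : (Fin 4 → ℝ) → ℝ) : (Fin 4 → ℝ) → ℝ :=
  fun z => deriv (fun s : ℝ => F (z + Pi.single j s)) 0

/-- The mixed derivative `∂_t^{α 0} ∂_1^{α 1} ∂_2^{α 2} ∂_3^{α 3} F`. -/
noncomputable def mixedDeriv (α : Fin 4 → ℕ) (F : (Fin 4 → ℝ) → ℝ) : (Fin 4 → ℝ) → ℝ :=
  (coordDeriv 0)^[α 0] ((coordDeriv 1)^[α 1] ((coordDeriv 2)^[α 2] ((coordDeriv 3)^[α 3] F)))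

/-- `c` is a program for the force `f`: given a multi-index `α`, a component `i`, a rational
space-time point `z` and a rational accuracy `ε > 0`, it halts and returns a rational number
within `ε` of `∂^α f_i (z)`. -/
def IsProgramFor (c : Nat.Partrec.Code) (f : ℝ → T3 → Fin 3 → ℝ) : Prop :=
  ∀ (α : Fin 4 → ℕ) (i : Fin 3) (z : Fin 4 → ℤ × ℕ) (ε : ℤ × ℕ), 0 < ratVal ε →
    ∃ r : ℤ × ℕ, Runs c (α, i, z, ε) r ∧
      |ratVal r - mixedDeriv α (lift (cpt f i)) (fun j => ratVal (z j))| ≤ ratVal ε

/-- A force compiler: a total algorithm `compile` that sends the description of `(M, w)` to a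
program for the smooth force `f M w`, where from a time `T₀` independent of `(M, w)` on the force
is periodic in time and depends on `M` only. -/
structure IsForceCompiler (compile : PairCode → Nat.Partrec.Code)
    (f : (M : Machine) → List (Fin (M.na + 1)) → ℝ → T3 → Fin 3 → ℝ) : Prop where
  computable : Computable compile
  smooth : ∀ M w i, Smooth (cpt (f M w) i)
  program : ∀ M w, IsProgramFor (compile (M.describe w)) (f M w)
  eventually_periodic : ∃ T₀ : ℝ, 0 ≤ T₀ ∧ ∀ M, ∃ P : ℝ, 0 < P ∧
    ∃ g : ℝ → T3 → Fin 3 → ℝ, (∀ t, T₀ ≤ t → g (t + P) = g t) ∧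
      ∀ w t, T₀ ≤ t → f M w t = g t

end Vale.Agent.P113
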