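import Mathlib
import Vale.Agent.P113.Defs

/-! Coordinate derivatives on `ℝ⁴` and sums of tensor products. -/

open Set
open scoped ContDiff

namespace Vale.Agent.P113

theorem hasDerivAt_coord {F : (Fin 4 → ℝ) → ℝ} (hF : ContDiff ℝ ∞ F) (j : Fin 4)
    (z : Fin 4 → ℝ) :
    HasDerivAt (fun s : ℝ => F (z + Pi.single j s)) (fderiv ℝ F z (Pi.single j 1)) 0 := by
  have h1 : HasDerivAt (fun s : ℝ => z + (Pi.single j s : Fin 4 → ℝ)) (Pi.single j 1) 0 := by
    have : (fun s : ℝ => z + (Pi.single j s : Fin 4 → ℝ))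
        = fun s : ℝ => z + s • (Pi.single j 1 : Fin 4 → ℝ) := by
      funext s
      rw [← Pi.single_smul, smul_eq_mul, mul_one]
    rw [this]
    simpa using ((hasDerivAt_id (0 : ℝ)).smul_const (Pi.single j 1 : Fin 4 → ℝ)).const_add z
  have h2 : HasFDerivAt F (fderiv ℝ F z) (z + (Pi.single j (0 : ℝ) : Fin 4 → ℝ)) := by
    simpa using (hF.differentiable (by simp) z).hasFDerivAt
  exact h2.comp_hasDerivAt (0 : ℝ) h1

theorem coordDeriv_eq {F : (Fin 4 → ℝ) → ℝ} (hF : ContDiff ℝ ∞ F) (j : Fin 4) :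
    coordDeriv j F = fun z => fderiv ℝ F z (Pi.single j 1) :=
  funext fun z => (hasDerivAt_coord hF j z).deriv

theorem hasDerivAt_coordDeriv {F : (Fin 4 → ℝ) → ℝ} (hF : ContDiff ℝ ∞ F) (j : Fin 4)
    (z : Fin 4 → ℝ) :
    HasDerivAt (fun s : ℝ => F (z + Pi.single j s)) (coordDeriv j F z) 0 :=
  (hasDerivAt_coord hF j z).differentiableAt.hasDerivAt

theorem contDiff_coordDeriv {F : (Fin 4 → ℝ) → ℝ} (hF : ContDiff ℝ ∞ F) (j : Fin 4) :
    ContDiff ℝ ∞ (coordDeriv j F) := by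
  rw [coordDeriv_eq hF]
  exact (hF.fderiv_right (m := ∞) (by simp)).clm_apply contDiff_const

theorem contDiff_coordDeriv_iterate {F : (Fin 4 → ℝ) → ℝ} (hF : ContDiff ℝ ∞ F) (j : Fin 4)
    (n : ℕ) : ContDiff ℝ ∞ ((coordDeriv j)^[n] F) := by
  induction n with
  | zero => exact hF
  | succ n ih =>
    rw [Function.iterate_succ_apply']
    exact contDiff_coordDeriv ih j

theorem coordDeriv_lin {F G : (Fin 4 → ℝ) → ℝ} (hF : ContDiff ℝ ∞ F) (hG : ContDiff ℝ ∞ G)
    (c : ℝ) (j : Fin 4) :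
    coordDeriv j (fun z => F z + c * G z) = fun z => coordDeriv j F z + c * coordDeriv j G z :=
  funext fun z => ((hasDerivAt_coordDeriv hF j z).add
    ((hasDerivAt_coordDeriv hG j z).const_mul c)).deriv

theorem coordDeriv_iterate_lin {F G : (Fin 4 → ℝ) → ℝ} (hF : ContDiff ℝ ∞ F)
    (hG : ContDiff ℝ ∞ G) (c : ℝ) (j : Fin 4) (n : ℕ) :
    (coordDeriv j)^[n] (fun z => F z + c * G z)
      = fun z => (coordDeriv j)^[n] F z + c * (coordDeriv j)^[n] G z := by
  induction n with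
  | zero => rfl
  | succ n ih =>
    rw [Function.iterate_succ_apply', ih, coordDeriv_lin (contDiff_coordDeriv_iterate hF j n)
      (contDiff_coordDeriv_iterate hG j n), Function.iterate_succ_apply',
      Function.iterate_succ_apply']

theorem mixedDeriv_lin {F G : (Fin 4 → ℝ) → ℝ} (hF : ContDiff ℝ ∞ F) (hG : ContDiff ℝ ∞ G)
    (c : ℝ) (α : Fin 4 → ℕ) :
    mixedDeriv α (fun z => F z + c * G z) = fun z => mixedDeriv α F z + c * mixedDeriv α G z := by
  unfold mixedDeriv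
  have F3 := contDiff_coordDeriv_iterate hF 3 (α 3)
  have G3 := contDiff_coordDeriv_iterate hG 3 (α 3)
  have F2 := contDiff_coordDeriv_iterate F3 2 (α 2)
  have G2 := contDiff_coordDeriv_iterate G3 2 (α 2)
  have F1 := contDiff_coordDeriv_iterate F2 1 (α 1)
  have G1 := contDiff_coordDeriv_iterate G2 1 (α 1)
  rw [coordDeriv_iterate_lin hF hG, coordDeriv_iterate_lin F3 G3, coordDeriv_iterate_lin F2 G2,
    coordDeriv_iterate_lin F1 G1]

/-- A finite sum of tensor products of derivatives of functions of one variable. -/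
noncomputable def tens {ι : Type} (s : Finset ι) (c : ι → ℝ) (Φ : ι → Fin 4 → ℝ → ℝ)
    (n : Fin 4 → ℕ) : (Fin 4 → ℝ) → ℝ :=
  fun z => ∑ k ∈ s, c k * ∏ l, iteratedDeriv (n l) (Φ k l) (z l)

theorem contDiff_iteratedDeriv {φ : ℝ → ℝ} (h : ContDiff ℝ ∞ φ) (n : ℕ) :
    ContDiff ℝ ∞ (iteratedDeriv n φ) := by
  rw [iteratedDeriv_eq_iterate]
  exact h.iterate_deriv n

theorem contDiff_tens {ι : Type} (s : Finset ι) (c : ι → ℝ) {Φ : ι → Fin 4 → ℝ → ℝ}
    (hΦ : ∀ k l, ContDiff ℝ ∞ (Φ k l)) (n : Fin 4 → ℕ) : ContDiff ℝ ∞ (tens s c Φ n) := by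
  unfold tens
  refine ContDiff.sum fun k _ => contDiff_const.mul (contDiff_prod fun l _ => ?_)
  exact (contDiff_iteratedDeriv (hΦ k l) _).comp (contDiff_apply ℝ ℝ l)

theorem coordDeriv_tens {ι : Type} (s : Finset ι) (c : ι → ℝ) {Φ : ι → Fin 4 → ℝ → ℝ}
    (hΦ : ∀ k l, ContDiff ℝ ∞ (Φ k l)) (n : Fin 4 → ℕ) (j : Fin 4) :
    coordDeriv j (tens s c Φ n) = tens s c Φ (n + Pi.single j 1) := by
  funext z
  refine HasDerivAt.deriv ?_
  unfold tens
  refine HasDerivAt.fun_sum fun k _ => HasDerivAt.const_mul _ ?_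
  have h1 : HasDerivAt (fun s : ℝ => iteratedDeriv (n j) (Φ k j) (z j + s))
      (iteratedDeriv (n j + 1) (Φ k j) (z j)) 0 := by
    have h2 := ((contDiff_iteratedDeriv (hΦ k j) (n j)).differentiable (by simp)
      (z j + 0)).hasDerivAt
    rw [← iteratedDeriv_succ] at h2
    simpa using h2.comp_const_add (z j) 0
  have h3 : ∀ s : ℝ, ∏ l, iteratedDeriv (n l) (Φ k l) ((z + (Pi.single j s : Fin 4 → ℝ)) l)
      = iteratedDeriv (n j) (Φ k j) (z j + s)
        * ∏ l ∈ Finset.univ.erase j, iteratedDeriv (n l) (Φ k l) (z l) := by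
    intro s
    rw [← Finset.mul_prod_erase _ _ (Finset.mem_univ j)]
    congr 1
    · simp
    · refine Finset.prod_congr rfl fun l hl => ?_
      simp [Pi.single_eq_of_ne (Finset.ne_of_mem_erase hl)]
  simp only [h3]
  refine (h1.mul_const _).congr_deriv ?_
  rw [← Finset.mul_prod_erase _ _ (Finset.mem_univ j)]
  congr 1
  · simp
  · refine Finset.prod_congr rfl fun l hl => ?_
    simp [Pi.single_eq_of_ne (Finset.ne_of_mem_erase hl)]

theorem coordDeriv_iterate_tens {ι : Type} (s : Finset ι) (c : ι → ℝ) {Φ : ι → Fin 4 → ℝ → ℝ}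
    (hΦ : ∀ k l, ContDiff ℝ ∞ (Φ k l)) (n : Fin 4 → ℕ) (j : Fin 4) (m : ℕ) :
    (coordDeriv j)^[m] (tens s c Φ n) = tens s c Φ (n + Pi.single j m) := by
  induction m with
  | zero => simp
  | succ m ih =>
    rw [Function.iterate_succ_apply', ih, coordDeriv_tens s c hΦ, add_assoc, ← Pi.single_add]

theorem mixedDeriv_tens {ι : Type} (s : Finset ι) (c : ι → ℝ) {Φ : ι → Fin 4 → ℝ → ℝ}
    (hΦ : ∀ k l, ContDiff ℝ ∞ (Φ k l)) (n α : Fin 4 → ℕ) :
    mixedDeriv α (tens s c Φ n) = tens s c Φ (n + α) := by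
  unfold mixedDeriv
  simp only [coordDeriv_iterate_tens s c hΦ]
  congr 1
  funext l
  fin_cases l <;> simp

/-- The lifted heat operator. -/
noncomputable def heat (ν : ℝ) (F : (Fin 4 → ℝ) → ℝ) : (Fin 4 → ℝ) → ℝ := fun z =>
  coordDeriv 0 F z - ν * ∑ j : Fin 3, coordDeriv j.succ (coordDeriv j.succ F) z

theorem mixedDeriv_heat_tens {ι : Type} (s : Finset ι) (c : ι → ℝ) {Φ : ι → Fin 4 → ℝ → ℝ}
    (hΦ : ∀ k l, ContDiff ℝ ∞ (Φ k l)) (ν : ℝ) (α : Fin 4 → ℕ) (z : Fin 4 → ℝ) :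
    mixedDeriv α (heat ν (tens s c Φ 0)) z = tens s c Φ (α + Pi.single 0 1) z
      - ν * (tens s c Φ (α + Pi.single 1 2) z + tens s c Φ (α + Pi.single 2 2) z
        + tens s c Φ (α + Pi.single 3 2) z) := by
  have e : ∀ j : Fin 4, (Pi.single j 1 : Fin 4 → ℕ) + Pi.single j 1 = Pi.single j 2 := by
    intro j
    rw [← Pi.single_add]
  have h : heat ν (tens s c Φ 0) = fun z => ((tens s c Φ (Pi.single 0 1) z
      + (-ν) * tens s c Φ (Pi.single 1 2) z) + (-ν) * tens s c Φ (Pi.single 2 2) z)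
      + (-ν) * tens s c Φ (Pi.single 3 2) z := by
    funext z
    simp only [heat, coordDeriv_tens s c hΦ, Fin.sum_univ_three, e, zero_add]
    have e1 : (0 : Fin 3).succ = (1 : Fin 4) := rfl
    have e2 : (1 : Fin 3).succ = (2 : Fin 4) := rfl
    have e3 : (2 : Fin 3).succ = (3 : Fin 4) := rfl
    rw [e1, e2, e3]
    ring
  have t := contDiff_tens s c hΦ
  rw [h, mixedDeriv_lin (((t _).add (contDiff_const.mul (t _))).add (contDiff_const.mul (t _)))
    (t _), mixedDeriv_lin ((t _).add (contDiff_const.mul (t _))) (t _), mixedDeriv_lin (t _) (t _)]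
  simp only [mixedDeriv_tens s c hΦ, add_comm _ α]
  ring

end Vale.Agent.P113
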