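import Mathlib
import Vale.Agent.P113.Defs

/-! Calculus on the torus: integration by parts. -/

open Set MeasureTheory

namespace Vale.Agent.P113

theorem line_zero (g : T3 → ℝ) (i : Fin 3) (x : T3) : line g i x 0 = g x := by
  simp [line]

theorem line_shift (g : T3 → ℝ) (i : Fin 3) (x : T3) (s r : ℝ) :
    line g i (x + Pi.single i (s : UnitAddCircle)) r = line g i x (s + r) := by
  simp only [line]
  congr 1
  rw [add_assoc, ← Pi.single_add]
  simp

theorem hasDerivAt_line {g : T3 → ℝ} {i : Fin 3}
    (hg : ∀ x, DifferentiableAt ℝ (line g i x) 0) (x : T3) (s : ℝ) :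
    HasDerivAt (line g i x) (pd i g (x + Pi.single i (s : UnitAddCircle))) s := by
  have h1 := (hg (x + Pi.single i (s : UnitAddCircle))).hasDerivAt
  have h2 : line g i x = fun r => line g i (x + Pi.single i (s : UnitAddCircle)) (r - s) := by
    funext r
    rw [line_shift]
    congr 1
    ring
  rw [h2]
  have h3 : HasDerivAt (fun r : ℝ => r - s) 1 s := (hasDerivAt_id s).sub_const s
  have h4 := HasDerivAt.comp_of_eq s h1 h3 (by simp)
  simpa [pd, Function.comp_def] using h4

theorem integrable_of_continuous {g : T3 → ℝ} (hg : Continuous g) : Integrable g :=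
  hg.integrable_of_hasCompactSupport (HasCompactSupport.of_compactSpace g)

theorem integral_pd_eq_zero {g : T3 → ℝ} {i : Fin 3} (hc : Continuous g)
    (hg : ∀ x, DifferentiableAt ℝ (line g i x) 0) (hc' : Continuous (pd i g)) :
    ∫ x, pd i g x = 0 := by
  obtain ⟨C, hC⟩ := (isCompact_univ.image hc'.norm).bddAbove
  have hC' : ∀ x, ‖pd i g x‖ ≤ C := fun x => hC ⟨x, mem_univ x, rfl⟩
  have key := hasDerivAt_integral_of_dominated_loc_of_deriv_le (μ := (volume : Measure T3))
    (F := fun (s : ℝ) (x : T3) => line g i x s)
    (F' := fun (s : ℝ) (x : T3) => pd i g (x + Pi.single i (s : UnitAddCircle)))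
    (x₀ := 0) (s := univ) (bound := fun _ => C) Filter.univ_mem
    (Filter.Eventually.of_forall fun s => by
      apply Continuous.aestronglyMeasurable
      exact hc.comp (continuous_id.add continuous_const))
    (by
      apply integrable_of_continuous
      exact hc.comp (continuous_id.add continuous_const))
    (by
      apply Continuous.aestronglyMeasurable
      exact hc'.comp (continuous_id.add continuous_const))
    (Filter.Eventually.of_forall fun x s _ => hC' _) (integrable_const C)
    (Filter.Eventually.of_forall fun x s _ => hasDerivAt_line hg x s)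
  have h2 : (fun s : ℝ => ∫ x, line g i x s) = fun _ => ∫ x, g x := by
    funext s
    exact integral_add_right_eq_self g _
  have h3 := key.2
  rw [h2] at h3
  have h4 := h3.unique (hasDerivAt_const _ _)
  simpa using h4

/-- `C¹` functions on the torus. -/
structure C1 (g : T3 → ℝ) : Prop where
  cont : Continuous g
  diff : HasPartials g
  cont_pd : ∀ i, Continuous (pd i g)

theorem HasPartials.hasDerivAt {g : T3 → ℝ} (h : HasPartials g) (i : Fin 3) (x : T3) :
    HasDerivAt (line g i x) (pd i g x) 0 := (h i x).hasDerivAt

theorem pd_add {g h : T3 → ℝ} (hg : HasPartials g) (hh : HasPartials h) (i : Fin 3) (x : T3) :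
    pd i (fun y => g y + h y) x = pd i g x + pd i h x :=
  ((hg.hasDerivAt i x).add (hh.hasDerivAt i x)).deriv

theorem pd_sub {g h : T3 → ℝ} (hg : HasPartials g) (hh : HasPartials h) (i : Fin 3) (x : T3) :
    pd i (fun y => g y - h y) x = pd i g x - pd i h x :=
  ((hg.hasDerivAt i x).sub (hh.hasDerivAt i x)).deriv

theorem pd_mul {g h : T3 → ℝ} (hg : HasPartials g) (hh : HasPartials h) (i : Fin 3) (x : T3) :
    pd i (fun y => g y * h y) x = pd i g x * h x + g x * pd i h x := by
  have := ((hg.hasDerivAt i x).mul (hh.hasDerivAt i x)).deriv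
  rw [line_zero, line_zero] at this
  exact this

theorem pd_const (c : ℝ) (i : Fin 3) (x : T3) : pd i (fun _ => c) x = 0 := by
  unfold pd line
  simp

theorem C1.add {g h : T3 → ℝ} (hg : C1 g) (hh : C1 h) : C1 fun y => g y + h y where
  cont := hg.cont.add hh.cont
  diff := fun i x => (hg.diff i x).add (hh.diff i x)
  cont_pd := fun i => by
    have : pd i (fun y => g y + h y) = fun x => pd i g x + pd i h x :=
      funext fun x => pd_add hg.diff hh.diff i x
    rw [this]
    exact (hg.cont_pd i).add (hh.cont_pd i)

theorem C1.sub {g h : T3 → ℝ} (hg : C1 g) (hh : C1 h) : C1 fun y => g y - h y where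
  cont := hg.cont.sub hh.cont
  diff := fun i x => (hg.diff i x).sub (hh.diff i x)
  cont_pd := fun i => by
    have : pd i (fun y => g y - h y) = fun x => pd i g x - pd i h x :=
      funext fun x => pd_sub hg.diff hh.diff i x
    rw [this]
    exact (hg.cont_pd i).sub (hh.cont_pd i)

theorem C1.mul {g h : T3 → ℝ} (hg : C1 g) (hh : C1 h) : C1 fun y => g y * h y where
  cont := hg.cont.mul hh.cont
  diff := fun i x => (hg.diff i x).mul (hh.diff i x)
  cont_pd := fun i => by
    have : pd i (fun y => g y * h y) = fun x => pd i g x * h x + g x * pd i h x :=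
      funext fun x => pd_mul hg.diff hh.diff i x
    rw [this]
    exact ((hg.cont_pd i).mul hh.cont).add (hg.cont.mul (hh.cont_pd i))

theorem C1.const (c : ℝ) : C1 fun _ => c where
  cont := continuous_const
  diff := fun i x => by
    unfold line
    exact differentiableAt_const c
  cont_pd := fun i => by
    have : pd i (fun _ => c) = fun _ => 0 := funext fun x => pd_const c i x
    rw [this]
    exact continuous_const

theorem C1.integral_pd {g : T3 → ℝ} (hg : C1 g) (i : Fin 3) : ∫ x, pd i g x = 0 :=
  integral_pd_eq_zero hg.cont (hg.diff i) (hg.cont_pd i)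

/-- A function all of whose coordinate derivatives vanish is constant. -/
theorem eq_const_of_pd_eq_zero {g : T3 → ℝ} (hg : HasPartials g) (h0 : ∀ i x, pd i g x = 0)
    (x : T3) : g x = g 0 := by
  have key : ∀ i y (θ : UnitAddCircle), g (y + Pi.single i θ) = g y := by
    intro i y θ
    obtain ⟨s, rfl⟩ := QuotientAddGroup.mk_surjective θ
    have h1 : ∀ r, HasDerivAt (line g i y) 0 r := fun r => by
      have := hasDerivAt_line (hg i) y r
      rwa [h0] at this
    have h2 := is_const_of_deriv_eq_zero (fun r => (h1 r).differentiableAt)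
      (fun r => (h1 r).deriv) s 0
    rw [line_zero] at h2
    exact h2
  have hx : x = (0 : T3) + (Pi.single 0 (x 0) : T3) + (Pi.single 1 (x 1) : T3)
      + (Pi.single 2 (x 2) : T3) := by
    funext j
    fin_cases j <;> simp
  rw [hx, key, key, key]

end Vale.Agent.P113
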