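import Mathlib
import Vale.Agent.P113.Tensor
import Vale.Agent.P113.Torus

/-! Smooth shear-type fields are classical solutions for the force they induce. -/

open Set MeasureTheory
open scoped ContDiff

namespace Vale.Agent.P113

/-- The two-sided time derivative. -/
noncomputable def dtAll (g : ℝ → T3 → ℝ) : ℝ → T3 → ℝ := fun t x => deriv (fun s => g s x) t

theorem proj_add_single (y : Fin 3 → ℝ) (i : Fin 3) (s : ℝ) :
    proj (y + Pi.single i s) = proj y + Pi.single i (s : UnitAddCircle) := by
  funext j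
  by_cases h : j = i
  · subst h
    simp [proj]
  · simp [proj, Pi.single_eq_of_ne h]

theorem lift_add_succ (g : ℝ → T3 → ℝ) (z : Fin 4 → ℝ) (i : Fin 3) (s : ℝ) :
    lift g (z + Pi.single i.succ s) = line (g (z 0)) i (proj fun j => z j.succ) s := by
  unfold lift line
  rw [← proj_add_single]
  congr 1
  · simp
  · congr 1
    funext j
    by_cases h : j = i
    · subst h
      simp
    · have : j.succ ≠ i.succ := fun h' => h (Fin.succ_injective _ h')
      simp [Pi.single_eq_of_ne h, Pi.single_eq_of_ne this]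

theorem lift_add_zero (g : ℝ → T3 → ℝ) (z : Fin 4 → ℝ) (s : ℝ) :
    lift g (z + Pi.single 0 s) = g (z 0 + s) (proj fun j => z j.succ) := by
  unfold lift
  congr 1
  congr 1
  funext j
  simp

theorem lift_pd (g : ℝ → T3 → ℝ) (i : Fin 3) :
    lift (fun t => pd i (g t)) = coordDeriv i.succ (lift g) := by
  funext z
  simp only [coordDeriv, lift_add_succ]
  rfl

theorem lift_dtAll (g : ℝ → T3 → ℝ) : lift (dtAll g) = coordDeriv 0 (lift g) := by
  funext z
  simp only [coordDeriv, lift_add_zero]
  have := deriv_comp_const_add (fun s => g s (proj fun j => z j.succ)) (z 0) 0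
  rw [add_zero] at this
  exact this.symm

theorem proj_surjective : Function.Surjective proj := fun x => by
  choose y hy using fun i => QuotientAddGroup.mk_surjective (x i)
  exact ⟨y, funext hy⟩

theorem exists_lift_point (t : ℝ) (x : T3) :
    ∃ z : Fin 4 → ℝ, z 0 = t ∧ (proj fun j => z j.succ) = x := by
  obtain ⟨y, rfl⟩ := proj_surjective x
  exact ⟨Fin.cons t y, rfl, rfl⟩

theorem isOpenQuotientMap_proj : IsOpenQuotientMap proj :=
  IsOpenQuotientMap.piMap fun _ => QuotientAddGroup.isOpenQuotientMap_mk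

theorem Smooth.continuous {g : ℝ → T3 → ℝ} (hg : Smooth g) :
    Continuous fun z : ℝ × T3 => g z.1 z.2 := by
  rw [← (IsOpenQuotientMap.id.prodMap isOpenQuotientMap_proj).continuous_comp_iff]
  have h : Continuous fun p : ℝ × (Fin 3 → ℝ) => (Fin.cons p.1 p.2 : Fin 4 → ℝ) := by
    refine continuous_pi fun j => ?_
    refine Fin.cases ?_ (fun i => ?_) j
    · exact continuous_fst
    · exact (continuous_apply i).comp continuous_snd
  exact (ContDiff.continuous hg).comp h

theorem Smooth.contOn {g : ℝ → T3 → ℝ} (hg : Smooth g) (T : ℝ) : ContOn T g :=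
  hg.continuous.continuousOn

theorem Smooth.pd {g : ℝ → T3 → ℝ} (hg : Smooth g) (i : Fin 3) : Smooth fun t => pd i (g t) := by
  unfold Smooth
  rw [lift_pd]
  exact contDiff_coordDeriv hg _

theorem Smooth.dtAll {g : ℝ → T3 → ℝ} (hg : Smooth g) : Smooth (dtAll g) := by
  unfold Smooth
  rw [lift_dtAll]
  exact contDiff_coordDeriv hg _

theorem Smooth.hasPartials {g : ℝ → T3 → ℝ} (hg : Smooth g) (t : ℝ) : HasPartials (g t) := by
  intro i x
  obtain ⟨z, rfl, rfl⟩ := exists_lift_point t x
  have := (hasDerivAt_coord hg i.succ z).differentiableAt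
  simp only [lift_add_succ] at this
  exact this

theorem Smooth.differentiableAt_time {g : ℝ → T3 → ℝ} (hg : Smooth g) (t : ℝ) (x : T3) :
    DifferentiableAt ℝ (fun s => g s x) t := by
  obtain ⟨z, rfl, rfl⟩ := exists_lift_point t x
  have h := (hasDerivAt_coord hg 0 z).differentiableAt
  simp only [lift_add_zero] at h
  have h2 : DifferentiableAt ℝ (fun s => g (z 0 + s) (proj fun j => z j.succ)) (z 0 - z 0) := by
    simpa using h
  have h3 := DifferentiableAt.comp (f := fun s : ℝ => s - z 0) (z 0) h2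
    (differentiableAt_id.sub_const (z 0))
  simpa [Function.comp_def] using h3

theorem Smooth.dt_eq {g : ℝ → T3 → ℝ} (hg : Smooth g) {T t : ℝ} (hT : 0 < T) (ht : t ∈ Icc 0 T)
    (x : T3) : dt T g t x = Vale.Agent.P113.dtAll g t x :=
  (hg.differentiableAt_time t x).derivWithin (uniqueDiffOn_Icc hT t ht)

/-- The force that makes `u` a solution with zero pressure when the advective term vanishes. -/
noncomputable def force (ν : ℝ) (u : ℝ → T3 → Fin 3 → ℝ) : ℝ → T3 → Fin 3 → ℝ := fun t x i =>
  dtAll (cpt u i) t x - ν * ∑ j, pd j (pd j (cpt u i t)) x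

theorem lift_force (ν : ℝ) (u : ℝ → T3 → Fin 3 → ℝ) (i : Fin 3) :
    lift (cpt (force ν u) i) = heat ν (lift (cpt u i)) := by
  funext z
  simp only [heat, ← lift_pd, ← lift_dtAll]
  rfl

theorem smooth_zero : Smooth fun _ _ => (0 : ℝ) := contDiff_const

theorem smooth_force (ν : ℝ) {u : ℝ → T3 → Fin 3 → ℝ} (hu : ∀ i, Smooth (cpt u i)) (i : Fin 3) :
    Smooth (cpt (force ν u) i) := by
  unfold Smooth
  rw [lift_force]
  unfold heat
  exact (contDiff_coordDeriv (hu i) 0).sub (contDiff_const.mul (ContDiff.sum fun j _ =>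
    contDiff_coordDeriv (contDiff_coordDeriv (hu i) _) _))

theorem isClassical_force (ν : ℝ) {u : ℝ → T3 → Fin 3 → ℝ} (hu : ∀ i, Smooth (cpt u i))
    (hdiv : ∀ t, 0 ≤ t → ∀ x, ∑ j, pd j (cpt u j t) x = 0)
    (hadv : ∀ t, 0 ≤ t → ∀ x i, ∑ j, u t x j * pd j (cpt u i t) x = 0)
    (h0 : ∀ x, u 0 x = 0) {T : ℝ} (hT : 0 < T) :
    IsClassical ν (force ν u) T u fun _ _ => 0 where
  time_diff := fun i t _ x => ((hu i).differentiableAt_time t x).differentiableWithinAt
  space_diff := fun i t _ => (hu i).hasPartials t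
  space_diff₂ := fun i j t _ => ((hu i).pd j).hasPartials t
  pressure_diff := fun t _ => smooth_zero.hasPartials t
  cont_u := fun i => (hu i).contOn T
  cont_dt := fun i => ((hu i).dtAll.contOn T).congr fun z hz => (hu i).dt_eq hT hz.1 z.2
  cont_pd := fun i j => ((hu i).pd j).contOn T
  cont_pd₂ := fun i j k => (((hu i).pd j).pd k).contOn T
  cont_p := smooth_zero.contOn T
  cont_grad_p := fun j => (smooth_zero.pd j).contOn T
  momentum := fun t ht x i => by
    rw [(hu i).dt_eq hT ht, hadv t ht.1, pd_const]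
    simp only [force]
    ring
  div_free := fun t ht x => hdiv t ht.1 x
  initial := h0
  mean_zero := fun t _ => by simp

end Vale.Agent.P113
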