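import Mathlib

/-! Automation for computability proofs. -/

namespace Vale.Agent.P113

attribute [fun_prop] Computable

section
variable {α β γ : Type} [Primcodable α] [Primcodable β] [Primcodable γ]

@[fun_prop] theorem c_id : Computable fun x : α => x := Computable.id
@[fun_prop] theorem c_const (b : β) : Computable fun _ : α => b := Computable.const b
@[fun_prop] theorem c_comp {f : β → γ} {g : α → β} (hf : Computable f) (hg : Computable g) :
    Computable fun x => f (g x) := hf.comp hg
@[fun_prop] theorem c_pair {f : α → β} {g : α → γ} (hf : Computable f) (hg : Computable g) :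
    Computable fun x => (f x, g x) := hf.pair hg
@[fun_prop] theorem c_fst {f : α → β × γ} (hf : Computable f) : Computable fun x => (f x).1 :=
  Computable.fst.comp hf
@[fun_prop] theorem c_snd {f : α → β × γ} (hf : Computable f) : Computable fun x => (f x).2 :=
  Computable.snd.comp hf
@[fun_prop] theorem c_add {f g : α → ℕ} (hf : Computable f) (hg : Computable g) :
    Computable fun x => f x + g x := Primrec.nat_add.to_comp.comp hf hg
@[fun_prop] theorem c_sub {f g : α → ℕ} (hf : Computable f) (hg : Computable g) :
    Computable fun x => f x - g x := Primrec.nat_sub.to_comp.comp hf hg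
@[fun_prop] theorem c_mul {f g : α → ℕ} (hf : Computable f) (hg : Computable g) :
    Computable fun x => f x * g x := Primrec.nat_mul.to_comp.comp hf hg
@[fun_prop] theorem c_div {f g : α → ℕ} (hf : Computable f) (hg : Computable g) :
    Computable fun x => f x / g x := Primrec.nat_div.to_comp.comp hf hg
@[fun_prop] theorem c_mod {f g : α → ℕ} (hf : Computable f) (hg : Computable g) :
    Computable fun x => f x % g x := Primrec.nat_mod.to_comp.comp hf hg
@[fun_prop] theorem c_pow {f g : α → ℕ} (hf : Computable f) (hg : Computable g) :
    Computable fun x => f x ^ g x :=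
  (Primrec₂.unpaired'.1 Nat.Primrec.pow).to_comp.comp hf hg
@[fun_prop] theorem c_cond {c : α → Bool} {f g : α → β} (hc : Computable c) (hf : Computable f)
    (hg : Computable g) : Computable fun x => cond (c x) (f x) (g x) := Computable.cond hc hf hg
@[fun_prop] theorem c_ble {f g : α → ℕ} (hf : Computable f) (hg : Computable g) :
    Computable fun x => Nat.ble (f x) (g x) := by
  have : Computable fun x => decide (f x ≤ g x) := Primrec.nat_le.decide.to_comp.comp hf hg
  refine this.of_eq fun x => ?_
  by_cases h : f x ≤ g x
  · simp [h, Nat.ble_eq_true_of_le h]
  · have : Nat.ble (f x) (g x) = false := by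
      rw [← Bool.not_eq_true, Nat.ble_eq]
      exact h
    simp [h, this]
@[fun_prop] theorem c_cons {f : α → β} {g : α → List β} (hf : Computable f) (hg : Computable g) :
    Computable fun x => f x :: g x := Computable.list_cons.comp hf hg
@[fun_prop] theorem c_append {f g : α → List β} (hf : Computable f) (hg : Computable g) :
    Computable fun x => f x ++ g x := Computable.list_append.comp hf hg
@[fun_prop] theorem c_length {f : α → List β} (hf : Computable f) :
    Computable fun x => (f x).length := Computable.list_length.comp hf
@[fun_prop] theorem c_getD {f : α → List β} {g : α → ℕ} (d : β) (hf : Computable f)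
    (hg : Computable g) : Computable fun x => (f x).getD (g x) d :=
  (Primrec.list_getD d).to_comp.comp hf hg
@[fun_prop] theorem c_not {f : α → Bool} (hf : Computable f) : Computable fun x => !(f x) :=
  Primrec.not.to_comp.comp hf
@[fun_prop] theorem c_and {f g : α → Bool} (hf : Computable f) (hg : Computable g) :
    Computable fun x => (f x && g x) := Primrec.and.to_comp.comp hf hg

theorem c_ite {c : α → Prop} [DecidablePred c] {f g : α → β}
    (hc : Computable fun x => decide (c x)) (hf : Computable f) (hg : Computable g) :
    Computable fun x => if c x then f x else g x :=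
  (Computable.cond hc hf hg).of_eq fun x => by by_cases h : c x <;> simp [h]

theorem c_le {f g : α → ℕ} (hf : Computable f) (hg : Computable g) :
    Computable fun x => decide (f x ≤ g x) := Primrec.nat_le.decide.to_comp.comp hf hg

theorem c_lt {f g : α → ℕ} (hf : Computable f) (hg : Computable g) :
    Computable fun x => decide (f x < g x) := Primrec.nat_lt.decide.to_comp.comp hf hg

theorem c_eq {f g : α → ℕ} (hf : Computable f) (hg : Computable g) :
    Computable fun x => decide (f x = g x) := Primrec.eq.decide.to_comp.comp hf hg

theorem c_iterate {n : α → ℕ} {b : α → β} {h : α × β → β} (hn : Computable n)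
    (hb : Computable b) (hh : Computable h) :
    Computable fun a => (fun y => h (a, y))^[n a] (b a) := by
  have := Computable.nat_rec (f := n) (g := b) (h := fun a p => h (a, p.2)) hn hb
    (Computable₂.mk (by fun_prop))
  refine this.of_eq fun a => ?_
  induction n a with
  | zero => rfl
  | succ k ih => simp only [Function.iterate_succ_apply', ← ih]

end

example : Computable fun p : (ℕ × ℕ × ℕ) × ℕ × ℕ × ℕ =>
    (p.1.1 * (p.2.2.2 + 1) + p.2.1 * (p.1.2.2 + 1), cond (Nat.ble p.1.1 p.2.1) 1 (p.2.2.1 - 2)) := by
  fun_prop

end Vale.Agent.P113
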