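import Mathlib
import Vale.Agent.P113.CompBasic

/-! Computable rational valued functions. -/

namespace Vale.Agent.P113

/-- Codes for rationals. -/
abbrev QC : Type := ℕ × ℕ × ℕ

/-- Value of a code. -/
def qv (r : QC) : ℚ := ((r.1 : ℚ) - r.2.1) / ((r.2.2 : ℚ) + 1)

/-- Computable rational valued functions. -/
def RatComp {α : Type} [Primcodable α] (g : α → ℚ) : Prop :=
  ∃ h : α → QC, Computable h ∧ ∀ a, qv (h a) = g a

def qadd (r s : QC) : QC :=
  (r.1 * (s.2.2 + 1) + s.1 * (r.2.2 + 1), r.2.1 * (s.2.2 + 1) + s.2.1 * (r.2.2 + 1),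
    r.2.2 * s.2.2 + r.2.2 + s.2.2)

def qmul (r s : QC) : QC :=
  (r.1 * s.1 + r.2.1 * s.2.1, r.1 * s.2.1 + r.2.1 * s.1, r.2.2 * s.2.2 + r.2.2 + s.2.2)

theorem qv_qadd (r s : QC) : qv (qadd r s) = qv r + qv s := by
  simp only [qv, qadd]
  push_cast
  have h1 : (r.2.2 : ℚ) + 1 ≠ 0 := by positivity
  have h2 : (s.2.2 : ℚ) + 1 ≠ 0 := by positivity
  have h3 : (r.2.2 : ℚ) * s.2.2 + r.2.2 + s.2.2 + 1 = (r.2.2 + 1) * (s.2.2 + 1) := by ring
  rw [h3]
  field_simp
  ring

theorem qv_qmul (r s : QC) : qv (qmul r s) = qv r * qv s := by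
  simp only [qv, qmul]
  push_cast
  have h1 : (r.2.2 : ℚ) + 1 ≠ 0 := by positivity
  have h2 : (s.2.2 : ℚ) + 1 ≠ 0 := by positivity
  have h3 : (r.2.2 : ℚ) * s.2.2 + r.2.2 + s.2.2 + 1 = (r.2.2 + 1) * (s.2.2 + 1) := by ring
  rw [h3]
  field_simp
  ring

variable {α β : Type} [Primcodable α] [Primcodable β]

@[fun_prop] theorem c_qadd {f g : α → QC} (hf : Computable f) (hg : Computable g) :
    Computable fun x => qadd (f x) (g x) := by
  unfold qadd
  fun_prop

@[fun_prop] theorem c_qmul {f g : α → QC} (hf : Computable f) (hg : Computable g) :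
    Computable fun x => qmul (f x) (g x) := by
  unfold qmul
  fun_prop

namespace RatComp

theorem of_eq {f g : α → ℚ} (hf : RatComp f) (h : ∀ a, f a = g a) : RatComp g := by
  obtain ⟨r, hr, e⟩ := hf
  exact ⟨r, hr, fun a => (e a).trans (h a)⟩

theorem comp {f : β → ℚ} {g : α → β} (hf : RatComp f) (hg : Computable g) :
    RatComp fun a => f (g a) := by
  obtain ⟨r, hr, e⟩ := hf
  exact ⟨fun a => r (g a), hr.comp hg, fun a => e _⟩

theorem nat {n : α → ℕ} (hn : Computable n) : RatComp fun a => (n a : ℚ) :=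
  ⟨fun a => (n a, 0, 0), by fun_prop, fun a => by simp [qv]⟩

theorem add {f g : α → ℚ} (hf : RatComp f) (hg : RatComp g) : RatComp fun a => f a + g a := by
  obtain ⟨r, hr, e⟩ := hf
  obtain ⟨s, hs, e'⟩ := hg
  exact ⟨fun a => qadd (r a) (s a), by fun_prop, fun a => by rw [qv_qadd, e, e']⟩

theorem mul {f g : α → ℚ} (hf : RatComp f) (hg : RatComp g) : RatComp fun a => f a * g a := by
  obtain ⟨r, hr, e⟩ := hf
  obtain ⟨s, hs, e'⟩ := hg
  exact ⟨fun a => qmul (r a) (s a), by fun_prop, fun a => by rw [qv_qmul, e, e']⟩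

theorem neg {f : α → ℚ} (hf : RatComp f) : RatComp fun a => -f a := by
  obtain ⟨r, hr, e⟩ := hf
  refine ⟨fun a => ((r a).2.1, (r a).1, (r a).2.2), by fun_prop, fun a => ?_⟩
  beta_reduce
  rw [← e]
  simp only [qv]
  ring

theorem sub {f g : α → ℚ} (hf : RatComp f) (hg : RatComp g) : RatComp fun a => f a - g a :=
  (hf.add hg.neg).of_eq fun a => by ring

theorem cond {c : α → Bool} {f g : α → ℚ} (hc : Computable c) (hf : RatComp f) (hg : RatComp g) :
    RatComp fun a => cond (c a) (f a) (g a) := by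
  obtain ⟨r, hr, e⟩ := hf
  obtain ⟨s, hs, e'⟩ := hg
  refine ⟨fun a => _root_.cond (c a) (r a) (s a), by fun_prop, fun a => ?_⟩
  beta_reduce
  cases c a <;> simp [e, e']

theorem ite {c : α → Prop} [DecidablePred c] {f g : α → ℚ}
    (hc : Computable fun a => decide (c a)) (hf : RatComp f) (hg : RatComp g) :
    RatComp fun a => if c a then f a else g a :=
  (cond hc hf hg).of_eq fun a => by by_cases h : c a <;> simp [h]

theorem nonneg {f : α → ℚ} (hf : RatComp f) : Computable fun a => decide (0 ≤ f a) := by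
  obtain ⟨r, hr, e⟩ := hf
  refine (c_le (f := fun a => (r a).2.1) (g := fun a => (r a).1) (by fun_prop)
    (by fun_prop)).of_eq fun a => ?_
  rw [← e]
  have h1 : (0 : ℚ) < ((r a).2.2 : ℚ) + 1 := by positivity
  simp only [qv, le_div_iff₀ h1, zero_mul, sub_nonneg, Nat.cast_le]

theorem le {f g : α → ℚ} (hf : RatComp f) (hg : RatComp g) :
    Computable fun a => decide (f a ≤ g a) :=
  (hg.sub hf).nonneg.of_eq fun a => by simp

theorem inv {f : α → ℚ} (hf : RatComp f) : RatComp fun a => (f a)⁻¹ := by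
  obtain ⟨r, hr, e⟩ := hf
  refine ⟨fun a => if (r a).2.1 < (r a).1 then ((r a).2.2 + 1, 0, (r a).1 - (r a).2.1 - 1)
    else if (r a).1 < (r a).2.1 then (0, (r a).2.2 + 1, (r a).2.1 - (r a).1 - 1) else (0, 0, 0),
    c_ite (c_lt (by fun_prop) (by fun_prop)) (by fun_prop)
      (c_ite (c_lt (by fun_prop) (by fun_prop)) (by fun_prop) (by fun_prop)), fun a => ?_⟩
  beta_reduce
  rw [← e]
  obtain ⟨x, y, z⟩ := r a
  simp only [qv]
  split_ifs with h1 h2
  · obtain ⟨d, rfl⟩ := Nat.exists_eq_add_of_lt h1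
    have : y + d + 1 - y - 1 = d := by omega
    simp only [this]
    push_cast
    rw [inv_div]
    congr 1 <;> ring
  · obtain ⟨d, rfl⟩ := Nat.exists_eq_add_of_lt h2
    have : x + d + 1 - x - 1 = d := by omega
    simp only [this]
    push_cast
    rw [inv_div]
    have h3 : (x : ℚ) - (x + d + 1) = -(d + 1) := by ring
    rw [h3, div_neg]
    ring
  · have : x = y := by omega
    simp [this]

theorem div {f g : α → ℚ} (hf : RatComp f) (hg : RatComp g) : RatComp fun a => f a / g a :=
  (hf.mul hg.inv).of_eq fun a => by rw [div_eq_mul_inv]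

theorem const (q : ℚ) : RatComp fun _ : α => q := by
  have h : q = ((q.num.toNat : ℚ) - ((-q.num).toNat : ℚ)) / (q.den : ℚ) := by
    have : ((q.num.toNat : ℚ) - ((-q.num).toNat : ℚ)) = q.num := by
      have := Int.toNat_sub_toNat_neg q.num
      exact_mod_cast this
    rw [this, Rat.num_div_den]
  exact (((nat (Computable.const _)).sub (nat (Computable.const _))).div
    (nat (Computable.const _))).of_eq fun _ => h.symm

theorem abs {f : α → ℚ} (hf : RatComp f) : RatComp fun a => |f a| :=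
  (ite hf.nonneg hf hf.neg).of_eq fun a => by
    split_ifs with h
    · rw [abs_of_nonneg h]
    · rw [abs_of_neg (not_le.1 h)]

theorem pow {f : α → ℚ} {n : α → ℕ} (hf : RatComp f) (hn : Computable n) :
    RatComp fun a => f a ^ n a := by
  obtain ⟨r, hr, e⟩ := hf
  refine ⟨fun a => (fun y => qmul y (r a))^[n a] (1, 0, 0),
    c_iterate (h := fun p : α × QC => qmul p.2 (r p.1)) hn (by fun_prop) (by fun_prop),
    fun a => ?_⟩
  beta_reduce
  induction n a with
  | zero => simp [qv]
  | succ k ih => rw [Function.iterate_succ_apply', qv_qmul, ih, e, pow_succ]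

theorem sum_range {f : α × ℕ → ℚ} {n : α → ℕ} (hf : RatComp f) (hn : Computable n) :
    RatComp fun a => ∑ k ∈ Finset.range (n a), f (a, k) := by
  obtain ⟨r, hr, e⟩ := hf
  refine ⟨fun a => Nat.rec (motive := fun _ => QC) (0, 0, 0) (fun k y => qadd y (r (a, k))) (n a),
    Computable.nat_rec (g := fun _ => ((0, 0, 0) : QC))
      (h := fun a (p : ℕ × QC) => qadd p.2 (r (a, p.1))) hn (by fun_prop)
      (Computable₂.mk (by fun_prop)), fun a => ?_⟩
  beta_reduce
  induction n a with
  | zero => simp [qv]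
  | succ k ih => rw [Finset.sum_range_succ, ← ih, ← e, ← qv_qadd]

theorem fract {f : α → ℚ} (hf : RatComp f) : RatComp fun a => Int.fract (f a) := by
  obtain ⟨r, hr, e⟩ := hf
  refine ⟨fun a => (((r a).1 + (r a).2.1 * (r a).2.2) % ((r a).2.2 + 1), 0, (r a).2.2),
    by fun_prop, fun a => ?_⟩
  beta_reduce
  rw [← e]
  obtain ⟨x, y, z⟩ := r a
  simp only [qv]
  have h1 : ((x : ℚ) - y) / (z + 1) = ((x + y * z : ℕ) : ℚ) / ((z + 1 : ℕ) : ℚ) - (y : ℤ) := by
    push_cast
    field_simp
    ring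
  rw [h1, Int.fract_sub_intCast, Int.fract_div_natCast_eq_div_natCast_mod]
  simp

theorem exists_bound {f : α → ℚ} (hf : RatComp f) :
    ∃ C : α → ℕ, Computable C ∧ ∀ a, |f a| ≤ C a := by
  obtain ⟨r, hr, e⟩ := hf
  refine ⟨fun a => (r a).1 + (r a).2.1, by fun_prop, fun a => ?_⟩
  beta_reduce
  rw [← e]
  obtain ⟨x, y, z⟩ := r a
  simp only [qv]
  have h1 : (0 : ℚ) < (z : ℚ) + 1 := by positivity
  rw [abs_div, abs_of_pos h1, div_le_iff₀ h1]
  have h2 : |(x : ℚ) - y| ≤ x + y := by
    rw [abs_le]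
    constructor <;> linarith [(Nat.cast_nonneg x : (0 : ℚ) ≤ x), (Nat.cast_nonneg y : (0 : ℚ) ≤ y)]
  push_cast
  have h3 : (0 : ℚ) ≤ (x + y) * z := by positivity
  nlinarith

end RatComp

theorem encode_int_ofNat (n : ℕ) : Encodable.encode (n : ℤ) = 2 * n := rfl

theorem encode_int_negSucc (n : ℕ) : Encodable.encode (Int.negSucc n) = 2 * n + 1 := rfl

theorem c_toNat {f : α → ℤ} (hf : Computable f) : Computable fun a => (f a).toNat := by
  have h : Computable fun a => Encodable.encode (f a) := Computable.encode.comp hf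
  refine (c_ite (c_eq (f := fun a => Encodable.encode (f a) % 2) (g := fun _ => 0) (by fun_prop)
    (by fun_prop)) (f := fun a => Encodable.encode (f a) / 2) (g := fun _ => 0) (by fun_prop)
    (by fun_prop)).of_eq fun a => ?_
  rcases f a with n | n
  · rw [Int.ofNat_eq_natCast, encode_int_ofNat]
    simp
  · rw [encode_int_negSucc]
    simp

theorem c_negToNat {f : α → ℤ} (hf : Computable f) : Computable fun a => (-f a).toNat := by
  have h : Computable fun a => Encodable.encode (f a) := Computable.encode.comp hf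
  refine (c_ite (c_eq (f := fun a => Encodable.encode (f a) % 2) (g := fun _ => 0) (by fun_prop)
    (by fun_prop)) (f := fun _ => 0) (g := fun a => Encodable.encode (f a) / 2 + 1) (by fun_prop)
    (by fun_prop)).of_eq fun a => ?_
  rcases f a with n | n
  · rw [Int.ofNat_eq_natCast, encode_int_ofNat]
    simp
  · rw [encode_int_negSucc]
    have : (2 * n + 1) / 2 = n := by omega
    simp [this]

theorem c_intSub {f g : α → ℕ} (hf : Computable f) (hg : Computable g) :
    Computable fun a => (f a : ℤ) - g a := by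
  rw [← Computable.encode_iff]
  refine (c_ite (c_le hg hf) (f := fun a => 2 * (f a - g a))
    (g := fun a => 2 * (g a - f a - 1) + 1) (by fun_prop) (by fun_prop)).of_eq fun a => ?_
  split_ifs with h
  · rw [← encode_int_ofNat, Nat.cast_sub h]
  · rw [← encode_int_negSucc]
    congr 1
    rw [Int.negSucc_eq]
    omega

theorem RatComp.ofPair {f : α → ℤ × ℕ} (hf : Computable f) :
    RatComp fun a => ((f a).1 : ℚ) / (((f a).2 : ℚ) + 1) := by
  refine ⟨fun a => ((f a).1.toNat, (-(f a).1).toNat, (f a).2),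
    c_pair (c_toNat (by fun_prop)) (c_pair (c_negToNat (by fun_prop)) (by fun_prop)), fun a => ?_⟩
  beta_reduce
  simp only [qv]
  congr 1
  have := Int.toNat_sub_toNat_neg (f a).1
  exact_mod_cast this

theorem RatComp.toPair {f : α → ℚ} (hf : RatComp f) :
    ∃ h : α → ℤ × ℕ, Computable h ∧ ∀ a, ((h a).1 : ℚ) / (((h a).2 : ℚ) + 1) = f a := by
  obtain ⟨r, hr, e⟩ := hf
  refine ⟨fun a => (((r a).1 : ℤ) - (r a).2.1, (r a).2.2),
    c_pair (c_intSub (by fun_prop) (by fun_prop)) (by fun_prop), fun a => ?_⟩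
  beta_reduce
  rw [← e]
  simp [qv]

end Vale.Agent.P113
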