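import Mathlib
import Vale.Agent.P113.RatComp

/-! Computable families of real numbers. -/

namespace Vale.Agent.P113

/-- Uniformly computable families of reals. -/
def RealComp {α : Type} [Primcodable α] (g : α → ℝ) : Prop :=
  ∃ r : α × ℕ → ℚ, RatComp r ∧ ∀ a k, |g a - r (a, k)| ≤ 1 / ((k : ℝ) + 1)

variable {α β : Type} [Primcodable α] [Primcodable β]

theorem one_div_succ_le_one (k : ℕ) : 1 / ((k : ℝ) + 1) ≤ 1 := by
  rw [div_le_one (by positivity)]
  linarith [(Nat.cast_nonneg k : (0 : ℝ) ≤ k)]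

theorem c_factorial {f : α → ℕ} (hf : Computable f) : Computable fun a => (f a).factorial := by
  refine (Computable.nat_rec (g := fun _ => 1) (h := fun _ (p : ℕ × ℕ) => (p.1 + 1) * p.2) hf
    (by fun_prop) (Computable₂.mk (by fun_prop))).of_eq fun a => ?_
  induction f a with
  | zero => rfl
  | succ k ih => simp only [Nat.factorial_succ, ← ih]

namespace RealComp

theorem of_approx {g : α → ℝ} {r : α × ℕ → ℚ} {C : α → ℕ} (hr : RatComp r) (hC : Computable C)
    (h : ∀ a k, |g a - r (a, k)| ≤ C a / ((k : ℝ) + 1)) : RealComp g := by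
  refine ⟨fun p => r (p.1, C p.1 * (p.2 + 1)), hr.comp (by fun_prop), fun a k => ?_⟩
  refine (h a _).trans ?_
  rw [div_le_div_iff₀ (by positivity) (by positivity)]
  push_cast
  linarith

theorem of_eq {f g : α → ℝ} (hf : RealComp f) (h : ∀ a, f a = g a) : RealComp g := by
  obtain ⟨r, hr, e⟩ := hf
  exact ⟨r, hr, fun a k => h a ▸ e a k⟩

theorem comp {f : β → ℝ} {g : α → β} (hf : RealComp f) (hg : Computable g) :
    RealComp fun a => f (g a) := by
  obtain ⟨r, hr, e⟩ := hf
  exact ⟨fun p => r (g p.1, p.2), hr.comp (by fun_prop), fun a k => e _ k⟩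

theorem ofRat {f : α → ℚ} (hf : RatComp f) : RealComp fun a => (f a : ℝ) :=
  ⟨fun p => f p.1, hf.comp (by fun_prop), fun a k => by
    simp only [sub_self, abs_zero]
    positivity⟩

theorem nat {n : α → ℕ} (hn : Computable n) : RealComp fun a => (n a : ℝ) :=
  (ofRat (RatComp.nat hn)).of_eq fun a => by simp

theorem zero : RealComp fun _ : α => (0 : ℝ) :=
  (nat (Computable.const 0)).of_eq fun a => by simp

theorem one : RealComp fun _ : α => (1 : ℝ) :=
  (nat (Computable.const 1)).of_eq fun a => by simp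

theorem add {f g : α → ℝ} (hf : RealComp f) (hg : RealComp g) : RealComp fun a => f a + g a := by
  obtain ⟨r, hr, e⟩ := hf
  obtain ⟨s, hs, e'⟩ := hg
  refine of_approx (C := fun _ => 2) (hr.add hs) (by fun_prop) fun a k => ?_
  have h1 := e a k
  have h2 := e' a k
  push_cast
  calc |f a + g a - (r (a, k) + s (a, k))| = |(f a - r (a, k)) + (g a - s (a, k))| := by ring_nf
    _ ≤ |f a - r (a, k)| + |g a - s (a, k)| := abs_add_le _ _
    _ ≤ 1 / ((k : ℝ) + 1) + 1 / ((k : ℝ) + 1) := add_le_add h1 h2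
    _ = 2 / ((k : ℝ) + 1) := by ring

theorem neg {f : α → ℝ} (hf : RealComp f) : RealComp fun a => -f a := by
  obtain ⟨r, hr, e⟩ := hf
  refine ⟨fun p => -r p, hr.neg, fun a k => ?_⟩
  push_cast
  rw [← abs_neg]
  convert e a k using 2
  ring

theorem sub {f g : α → ℝ} (hf : RealComp f) (hg : RealComp g) : RealComp fun a => f a - g a :=
  (hf.add hg.neg).of_eq fun a => by ring

theorem exists_bound {f : α → ℝ} (hf : RealComp f) :
    ∃ C : α → ℕ, Computable C ∧ ∀ a, |f a| ≤ C a := by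
  obtain ⟨r, hr, e⟩ := hf
  obtain ⟨C, hC, hb⟩ := (hr.comp (g := fun a : α => (a, 0)) (by fun_prop)).exists_bound
  refine ⟨fun a => C a + 1, by fun_prop, fun a => ?_⟩
  have h1 := e a 0
  have h2 : |(r (a, 0) : ℝ)| ≤ C a := by exact_mod_cast hb a
  push_cast at h1 ⊢
  calc |f a| = |(f a - r (a, 0)) + r (a, 0)| := by ring_nf
    _ ≤ |f a - r (a, 0)| + |(r (a, 0) : ℝ)| := abs_add_le _ _
    _ ≤ C a + 1 := by linarith

theorem mul {f g : α → ℝ} (hf : RealComp f) (hg : RealComp g) : RealComp fun a => f a * g a := by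
  obtain ⟨C, hC, hb⟩ := hf.exists_bound
  obtain ⟨D, hD, hb'⟩ := hg.exists_bound
  obtain ⟨r, hr, e⟩ := hf
  obtain ⟨s, hs, e'⟩ := hg
  refine of_approx (C := fun a => C a + D a + 1) (hr.mul hs) (by fun_prop) fun a k => ?_
  have h1 := e a k
  have h2 := e' a k
  have h3 := one_div_succ_le_one k
  have h4 : |(s (a, k) : ℝ)| ≤ D a + 1 := by
    calc |(s (a, k) : ℝ)| = |g a - (g a - s (a, k))| := by ring_nf
      _ ≤ |g a| + |g a - s (a, k)| := abs_sub _ _
      _ ≤ D a + 1 := by linarith [hb' a]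
  push_cast
  calc |f a * g a - r (a, k) * s (a, k)|
      = |f a * (g a - s (a, k)) + s (a, k) * (f a - r (a, k))| := by ring_nf
    _ ≤ |f a| * |g a - s (a, k)| + |(s (a, k) : ℝ)| * |f a - r (a, k)| := by
        rw [← abs_mul, ← abs_mul]
        exact abs_add_le _ _
    _ ≤ C a * (1 / ((k : ℝ) + 1)) + (D a + 1) * (1 / ((k : ℝ) + 1)) := by
        gcongr
        exact hb a
    _ = (C a + D a + 1) / ((k : ℝ) + 1) := by ring

theorem pow {f : α → ℝ} {n : α → ℕ} (hf : RealComp f) (hn : Computable n) :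
    RealComp fun a => f a ^ n a := by
  obtain ⟨C, hC, hb⟩ := hf.exists_bound
  obtain ⟨r, hr, e⟩ := hf
  refine of_approx (C := fun a => n a * (C a + 1) ^ (n a - 1))
    (hr.pow (n := fun p => n p.1) (by fun_prop)) (by fun_prop) fun a k => ?_
  have h1 := e a k
  have h3 := one_div_succ_le_one k
  have h4 : |(r (a, k) : ℝ)| ≤ C a + 1 := by
    calc |(r (a, k) : ℝ)| = |f a - (f a - r (a, k))| := by ring_nf
      _ ≤ |f a| + |f a - r (a, k)| := abs_sub _ _
      _ ≤ C a + 1 := by linarith [hb a]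
  have h5 : max |f a| |(r (a, k) : ℝ)| ≤ C a + 1 := max_le (by linarith [hb a]) h4
  push_cast
  calc |f a ^ n a - (r (a, k) : ℝ) ^ n a|
      ≤ |f a - r (a, k)| * n a * max |f a| |(r (a, k) : ℝ)| ^ (n a - 1) := abs_pow_sub_pow_le _ _ _
    _ ≤ (1 / ((k : ℝ) + 1)) * n a * (C a + 1) ^ (n a - 1) := by gcongr
    _ = n a * (C a + 1) ^ (n a - 1) / ((k : ℝ) + 1) := by ring

theorem cond {c : α → Bool} {f g : α → ℝ} (hc : Computable c) (hf : RealComp f)
    (hg : RealComp g) : RealComp fun a => cond (c a) (f a) (g a) := by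
  obtain ⟨r, hr, e⟩ := hf
  obtain ⟨s, hs, e'⟩ := hg
  refine ⟨fun p => _root_.cond (c p.1) (r p) (s p), RatComp.cond (by fun_prop) hr hs,
    fun a k => ?_⟩
  beta_reduce
  cases c a
  · exact e' a k
  · exact e a k

theorem ite {c : α → Prop} [DecidablePred c] {f g : α → ℝ}
    (hc : Computable fun a => decide (c a)) (hf : RealComp f) (hg : RealComp g) :
    RealComp fun a => if c a then f a else g a :=
  (cond hc hf hg).of_eq fun a => by by_cases h : c a <;> simp [h]

theorem sum_range {f : α × ℕ → ℝ} {n : α → ℕ} (hf : RealComp f) (hn : Computable n) :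
    RealComp fun a => ∑ k ∈ Finset.range (n a), f (a, k) := by
  obtain ⟨r, hr, e⟩ := hf
  refine of_approx (C := n)
    (r := fun p : α × ℕ => ∑ j ∈ Finset.range (n p.1), r ((p.1, j), p.2))
    (RatComp.sum_range (f := fun q : (α × ℕ) × ℕ => r ((q.1.1, q.2), q.1.2))
      (n := fun p => n p.1) (hr.comp (by fun_prop)) (by fun_prop)) hn fun a k => ?_
  push_cast
  rw [← Finset.sum_sub_distrib]
  refine (Finset.abs_sum_le_sum_abs _ _).trans ?_
  refine (Finset.sum_le_sum fun j _ => e (a, j) k).trans ?_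
  simp [div_eq_mul_inv]

theorem finset_sum {ι : Type} {f : ι → α → ℝ} (s : Finset ι) (hf : ∀ i ∈ s, RealComp (f i)) :
    RealComp fun a => ∑ i ∈ s, f i a := by
  classical
  induction s using Finset.induction_on with
  | empty => exact zero.of_eq fun a => by simp
  | insert i s hi ih =>
    refine ((hf i (Finset.mem_insert_self i s)).add
      (ih fun j hj => hf j (Finset.mem_insert_of_mem hj))).of_eq fun a => ?_
    rw [Finset.sum_insert hi]

theorem finset_prod {ι : Type} {f : ι → α → ℝ} (s : Finset ι) (hf : ∀ i ∈ s, RealComp (f i)) :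
    RealComp fun a => ∏ i ∈ s, f i a := by
  classical
  induction s using Finset.induction_on with
  | empty => exact one.of_eq fun a => by simp
  | insert i s hi ih =>
    refine ((hf i (Finset.mem_insert_self i s)).mul
      (ih fun j hj => hf j (Finset.mem_insert_of_mem hj))).of_eq fun a => ?_
    rw [Finset.prod_insert hi]

theorem list_sum {f : α × β → ℝ} {L : α → List β} (d : β) (hf : RealComp f)
    (hL : Computable L) : RealComp fun a => ((L a).map fun b => f (a, b)).sum := by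
  refine (sum_range (f := fun p : α × ℕ => f (p.1, (L p.1).getD p.2 d))
    (n := fun a => (L a).length) (hf.comp (by fun_prop)) (by fun_prop)).of_eq fun a => ?_
  dsimp only
  induction L a with
  | nil => simp
  | cons b l ih =>
    rw [List.length_cons, Finset.sum_range_succ', List.map_cons, List.sum_cons, ← ih, add_comm]
    simp

theorem exp_small {f : α → ℚ} (hf : RatComp f) (h1 : ∀ a, |(f a : ℝ)| ≤ 1) :
    RealComp fun a => Real.exp (f a) := by
  refine of_approx (C := fun _ => 2)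
    (r := fun p : α × ℕ => ∑ m ∈ Finset.range (p.2 + 1), f p.1 ^ m / (m.factorial : ℚ))
    (RatComp.sum_range (f := fun q : (α × ℕ) × ℕ => f q.1.1 ^ q.2 / (q.2.factorial : ℚ))
      (n := fun p => p.2 + 1) (((hf.comp (by fun_prop)).pow (by fun_prop)).div
        (RatComp.nat (c_factorial (by fun_prop)))) (by fun_prop)) (by fun_prop) fun a k => ?_
  have h := Real.exp_bound (h1 a) (n := k + 1) k.succ_pos
  push_cast at h ⊢
  refine h.trans ?_
  have h2 : |(f a : ℝ)| ^ (k + 1) ≤ 1 := pow_le_one₀ (abs_nonneg _) (h1 a)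
  have h3 : ((k : ℝ) + 1) ≤ ((k + 1).factorial : ℝ) := by
    exact_mod_cast Nat.self_le_factorial (k + 1)
  have h4 : ((k : ℝ) + 1 + 1) / (((k + 1).factorial : ℝ) * (k + 1)) ≤ 2 / ((k : ℝ) + 1) := by
    rw [div_le_div_iff₀ (by positivity) (by positivity)]
    have : (0 : ℝ) ≤ k := Nat.cast_nonneg k
    nlinarith
  calc _ ≤ 1 * (((k : ℝ) + 1 + 1) / (((k + 1).factorial : ℝ) * (k + 1))) := by gcongr
    _ ≤ _ := by rw [one_mul]; exact h4

theorem exp {f : α → ℚ} (hf : RatComp f) : RealComp fun a => Real.exp (f a) := by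
  obtain ⟨C, hC, hb⟩ := hf.exists_bound
  have h1 : RatComp fun a => f a / ((C a + 1 : ℕ) : ℚ) := hf.div (RatComp.nat (by fun_prop))
  refine ((exp_small h1 fun a => ?_).pow (n := fun a => C a + 1) (by fun_prop)).of_eq fun a => ?_
  · push_cast
    rw [abs_div, abs_of_pos (by positivity : (0 : ℝ) < C a + 1), div_le_one (by positivity)]
    have : |(f a : ℝ)| ≤ C a := by exact_mod_cast hb a
    linarith
  · rw [← Real.exp_nat_mul]
    congr 1
    push_cast
    field_simp

theorem inv_one_add {f : α → ℝ} (hf : RealComp f) (h0 : ∀ a, 0 ≤ f a) :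
    RealComp fun a => (1 + f a)⁻¹ := by
  obtain ⟨r, hr, e⟩ := hf
  refine ⟨fun p => (1 + |r p|)⁻¹, ((RatComp.const 1).add hr.abs).inv, fun a k => ?_⟩
  refine le_trans ?_ (e a k)
  push_cast
  have h1 : 0 < 1 + f a := by linarith [h0 a]
  have h2 : 0 < 1 + |(r (a, k) : ℝ)| := by positivity
  have h3 : (1 + f a)⁻¹ - (1 + |(r (a, k) : ℝ)|)⁻¹
      = (|(r (a, k) : ℝ)| - |f a|) / ((1 + f a) * (1 + |(r (a, k) : ℝ)|)) := by
    rw [abs_of_nonneg (h0 a)]
    field_simp
    ring
  rw [h3, abs_div, abs_of_pos (mul_pos h1 h2)]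
  have h4 : 1 ≤ (1 + f a) * (1 + |(r (a, k) : ℝ)|) := by
    nlinarith [h0 a, abs_nonneg (r (a, k) : ℝ)]
  refine (div_le_self (abs_nonneg _) h4).trans ?_
  rw [abs_sub_comm (f a)]
  exact abs_abs_sub_abs_le_abs_sub _ _

end RealComp

end Vale.Agent.P113
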