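import Mathlib
import Vale.Agent.P113.RealComp

/-! Derivatives of the smooth step function are computable. -/

open Set
open scoped ContDiff

namespace Vale.Agent.P113

/-- The smooth step. -/
noncomputable abbrev S : ℝ → ℝ := Real.smoothTransition

theorem S_contDiff : ContDiff ℝ ∞ S := Real.smoothTransition.contDiff

theorem S_eq {x : ℝ} (hx : x ∈ Ioo (0 : ℝ) 1) :
    S x = (1 + Real.exp (x⁻¹ - (1 - x)⁻¹))⁻¹ := by
  have h1 : ¬ x ≤ 0 := not_le.2 hx.1
  have h2 : ¬ 1 - x ≤ 0 := not_le.2 (by linarith [hx.2])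
  simp only [S, Real.smoothTransition, expNegInvGlue, h1, h2, if_false]
  rw [sub_eq_add_neg x⁻¹, Real.exp_add, Real.exp_neg x⁻¹]
  have := Real.exp_pos x⁻¹
  have := Real.exp_pos (-(1 - x)⁻¹)
  field_simp

theorem S_hasDerivAt {x : ℝ} (hx : x ∈ Ioo (0 : ℝ) 1) :
    HasDerivAt S ((S x - S x ^ 2) * ((-x⁻¹) ^ 2 + ((1 - x)⁻¹) ^ 2)) x := by
  have h0 : x ≠ 0 := hx.1.ne'
  have h1 : 1 - x ≠ 0 := by linarith [hx.2]
  have a1 : HasDerivAt (fun y : ℝ => y⁻¹) (-(x ^ 2)⁻¹) x := hasDerivAt_inv h0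
  have a2 : HasDerivAt (fun y : ℝ => (1 - y)⁻¹) (-(-1) / (1 - x) ^ 2) x :=
    ((hasDerivAt_id x).const_sub 1).inv h1
  have hpos := Real.exp_pos (x⁻¹ - (1 - x)⁻¹)
  have a3 := ((a1.sub a2).exp.const_add 1).inv (by
    simp only [Pi.sub_apply]
    positivity)
  have e : S =ᶠ[nhds x] fun y => (1 + Real.exp (y⁻¹ - (1 - y)⁻¹))⁻¹ := by
    filter_upwards [isOpen_Ioo.mem_nhds hx] with y hy using S_eq hy
  refine (HasDerivAt.congr_of_eventuallyEq a3 e).congr_deriv ?_
  rw [S_eq hx]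
  simp only [Pi.sub_apply]
  generalize Real.exp (x⁻¹ - (1 - x)⁻¹) = E at hpos
  field_simp
  ring

/-- Monomials: sign exponent, coefficient and three exponents. -/
abbrev Mono : Type := ℕ × ℕ × ℕ × ℕ × ℕ

/-- Value of a monomial. -/
noncomputable def mval (m : Mono) (x : ℝ) : ℝ :=
  (-1) ^ m.1 * m.2.1 * ((-x⁻¹) ^ m.2.2.1 * ((1 - x)⁻¹) ^ m.2.2.2.1) * S x ^ m.2.2.2.2

/-- Derivative of a monomial. -/
def dmono (m : Mono) : List Mono :=
  [(m.1, m.2.1 * m.2.2.1, m.2.2.1 + 1, m.2.2.2.1, m.2.2.2.2),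
   (m.1, m.2.1 * m.2.2.2.1, m.2.2.1, m.2.2.2.1 + 1, m.2.2.2.2),
   (m.1, m.2.1 * m.2.2.2.2, m.2.2.1 + 2, m.2.2.2.1, m.2.2.2.2),
   (m.1, m.2.1 * m.2.2.2.2, m.2.2.1, m.2.2.2.1 + 2, m.2.2.2.2),
   (m.1 + 1, m.2.1 * m.2.2.2.2, m.2.2.1 + 2, m.2.2.2.1, m.2.2.2.2 + 1),
   (m.1 + 1, m.2.1 * m.2.2.2.2, m.2.2.1, m.2.2.2.1 + 2, m.2.2.2.2 + 1)]

theorem nat_mul_pow_pred (n : ℕ) (a : ℝ) : (n : ℝ) * a ^ (n - 1) * a = n * a ^ n := by
  cases n with
  | zero => simp
  | succ k => simp [pow_succ, mul_assoc]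

theorem mval_hasDerivAt (m : Mono) {x : ℝ} (hx : x ∈ Ioo (0 : ℝ) 1) :
    HasDerivAt (mval m) (((dmono m).map fun m' => mval m' x).sum) x := by
  obtain ⟨s, c, i, j, l⟩ := m
  have h0 : x ≠ 0 := hx.1.ne'
  have h1 : 1 - x ≠ 0 := by linarith [hx.2]
  have a1 : HasDerivAt (fun y : ℝ => -y⁻¹) ((-x⁻¹) * (-x⁻¹)) x :=
    (hasDerivAt_inv h0).neg.congr_deriv (by field_simp)
  have a2 : HasDerivAt (fun y : ℝ => (1 - y)⁻¹) ((1 - x)⁻¹ * (1 - x)⁻¹) x :=
    (((hasDerivAt_id x).const_sub 1).inv h1).congr_deriv (by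
      simp only [id]
      field_simp)
  have a3 := S_hasDerivAt hx
  have a4 := (((a1.fun_pow i).fun_mul (a2.fun_pow j)).const_mul ((-1) ^ s * (c : ℝ))).fun_mul
    (a3.fun_pow l)
  refine a4.congr_deriv ?_
  simp only [dmono, mval, List.map_cons, List.map_nil, List.sum_cons, List.sum_nil]
  push_cast
  have e1 := nat_mul_pow_pred i (-x⁻¹)
  have e2 := nat_mul_pow_pred j (1 - x)⁻¹
  have e3 := nat_mul_pow_pred l (S x)
  generalize -x⁻¹ = u at *
  generalize (1 - x)⁻¹ = v at *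
  generalize S x = σ at *
  rw [pow_succ (-1 : ℝ) s]
  generalize (-1 : ℝ) ^ s = ε
  linear_combination ε * c * u * v ^ j * σ ^ l * e1 + ε * c * u ^ i * v * σ ^ l * e2
    + ε * c * u ^ i * v ^ j * (1 - σ) * (u ^ 2 + v ^ 2) * e3

/-- The list of monomials of the `k`-th derivative of the step. -/
def spoly (k : ℕ) : List Mono := (fun L : List Mono => L.flatMap dmono)^[k] [(0, 1, 0, 0, 1)]

theorem list_hasDerivAt (L : List Mono) {x : ℝ} (hx : x ∈ Ioo (0 : ℝ) 1) :
    HasDerivAt (fun y => (L.map fun m => mval m y).sum)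
      (((L.flatMap dmono).map fun m => mval m x).sum) x := by
  induction L with
  | nil => simpa using hasDerivAt_const x (0 : ℝ)
  | cons m L ih =>
    simp only [List.map_cons, List.sum_cons, List.flatMap_cons, List.map_append, List.sum_append]
    exact (mval_hasDerivAt m hx).add ih

theorem iteratedDeriv_S_mid (k : ℕ) {x : ℝ} (hx : x ∈ Ioo (0 : ℝ) 1) :
    iteratedDeriv k S x = ((spoly k).map fun m => mval m x).sum := by
  induction k generalizing x with
  | zero => simp [spoly, mval]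
  | succ k ih =>
    rw [iteratedDeriv_succ]
    have e : iteratedDeriv k S =ᶠ[nhds x] fun y => ((spoly k).map fun m => mval m y).sum := by
      filter_upwards [isOpen_Ioo.mem_nhds hx] with y hy using ih hy
    rw [e.deriv_eq, (list_hasDerivAt (spoly k) hx).deriv]
    simp only [spoly, Function.iterate_succ_apply']

theorem iteratedDeriv_eq_of_Iic {f g : ℝ → ℝ} (hf : ContDiff ℝ ∞ f) (hg : ContDiff ℝ ∞ g) {b : ℝ}
    (h : ∀ x, x ≤ b → f x = g x) (k : ℕ) {x : ℝ} (hx : x ≤ b) :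
    iteratedDeriv k f x = iteratedDeriv k g x := by
  have h1 : EqOn (iteratedDeriv k f) (iteratedDeriv k g) (Iio b) := by
    intro y hy
    have e : f =ᶠ[nhds y] g := by
      filter_upwards [isOpen_Iio.mem_nhds hy] with z hz using h z (le_of_lt hz)
    exact e.iteratedDeriv_eq k
  have h2 := h1.closure (hf.continuous_iteratedDeriv k (by exact_mod_cast le_top))
    (hg.continuous_iteratedDeriv k (by exact_mod_cast le_top))
  rw [closure_Iio] at h2
  exact h2 hx

theorem iteratedDeriv_eq_of_Ici {f g : ℝ → ℝ} (hf : ContDiff ℝ ∞ f) (hg : ContDiff ℝ ∞ g) {b : ℝ}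
    (h : ∀ x, b ≤ x → f x = g x) (k : ℕ) {x : ℝ} (hx : b ≤ x) :
    iteratedDeriv k f x = iteratedDeriv k g x := by
  have h1 : EqOn (iteratedDeriv k f) (iteratedDeriv k g) (Ioi b) := by
    intro y hy
    have e : f =ᶠ[nhds y] g := by
      filter_upwards [isOpen_Ioi.mem_nhds hy] with z hz using h z (le_of_lt hz)
    exact e.iteratedDeriv_eq k
  have h2 := h1.closure (hf.continuous_iteratedDeriv k (by exact_mod_cast le_top))
    (hg.continuous_iteratedDeriv k (by exact_mod_cast le_top))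
  rw [closure_Ioi] at h2
  exact h2 hx

theorem iteratedDeriv_S_left (k : ℕ) {x : ℝ} (hx : x ≤ 0) : iteratedDeriv k S x = 0 := by
  rw [iteratedDeriv_eq_of_Iic S_contDiff (contDiff_const (c := (0 : ℝ)))
    (fun y hy => Real.smoothTransition.zero_of_nonpos hy) k hx]
  simp

theorem iteratedDeriv_S_right (k : ℕ) {x : ℝ} (hx : 1 ≤ x) :
    iteratedDeriv k S x = if k = 0 then 1 else 0 := by
  rw [iteratedDeriv_eq_of_Ici S_contDiff (contDiff_const (c := (1 : ℝ)))
    (fun y hy => Real.smoothTransition.one_of_one_le hy) k hx]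
  simp [iteratedDeriv_const]

theorem primrec_dmono : Primrec dmono := by
  have p1 : Primrec fun m : Mono => m.1 := Primrec.fst
  have p2 : Primrec fun m : Mono => m.2.1 := Primrec.fst.comp Primrec.snd
  have p3 : Primrec fun m : Mono => m.2.2.1 := Primrec.fst.comp (Primrec.snd.comp Primrec.snd)
  have p4 : Primrec fun m : Mono => m.2.2.2.1 :=
    Primrec.fst.comp (Primrec.snd.comp (Primrec.snd.comp Primrec.snd))
  have p5 : Primrec fun m : Mono => m.2.2.2.2 :=
    Primrec.snd.comp (Primrec.snd.comp (Primrec.snd.comp Primrec.snd))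
  have ad : ∀ {f : Mono → ℕ} (k : ℕ), Primrec f → Primrec fun m => f m + k :=
    fun k hf => Primrec.nat_add.comp hf (Primrec.const k)
  have mu : ∀ {f g : Mono → ℕ}, Primrec f → Primrec g → Primrec fun m => f m * g m :=
    fun hf hg => Primrec.nat_mul.comp hf hg
  exact Primrec.list_cons.comp (p1.pair ((mu p2 p3).pair ((ad 1 p3).pair (p4.pair p5)))) <|
    Primrec.list_cons.comp (p1.pair ((mu p2 p4).pair (p3.pair ((ad 1 p4).pair p5)))) <|
    Primrec.list_cons.comp (p1.pair ((mu p2 p5).pair ((ad 2 p3).pair (p4.pair p5)))) <|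
    Primrec.list_cons.comp (p1.pair ((mu p2 p5).pair (p3.pair ((ad 2 p4).pair p5)))) <|
    Primrec.list_cons.comp ((ad 1 p1).pair ((mu p2 p5).pair ((ad 2 p3).pair
      (p4.pair (ad 1 p5))))) <|
    Primrec.list_cons.comp ((ad 1 p1).pair ((mu p2 p5).pair (p3.pair
      ((ad 2 p4).pair (ad 1 p5))))) (Primrec.const [])

theorem computable_spoly : Computable spoly := by
  have h : Primrec fun L : List Mono => L.flatMap dmono :=
    Primrec.list_flatMap Primrec.id (primrec_dmono.comp Primrec.snd).to₂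
  exact c_iterate (n := fun k : ℕ => k) (b := fun _ => [((0, 1, 0, 0, 1) : Mono)])
    (h := fun p : ℕ × List Mono => p.2.flatMap dmono) Computable.id (Computable.const _)
    (h.to_comp.comp Computable.snd)

variable {α : Type} [Primcodable α]

theorem RealComp.step {x : α → ℚ} (hx : RatComp x) : RealComp fun a => S (x a) := by
  refine (RealComp.ite (hx.le (RatComp.const 0)) RealComp.zero
    (RealComp.ite ((RatComp.const 1).le hx) RealComp.one
      ((RealComp.exp (hx.inv.sub ((RatComp.const 1).sub hx).inv)).inv_one_add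
        fun a => (Real.exp_pos _).le))).of_eq fun a => ?_
  split_ifs with h1 h2
  · exact (Real.smoothTransition.zero_of_nonpos (by exact_mod_cast h1)).symm
  · exact (Real.smoothTransition.one_of_one_le (by exact_mod_cast h2)).symm
  · rw [S_eq ⟨by exact_mod_cast not_le.1 h1, by exact_mod_cast not_le.1 h2⟩]
    push_cast
    rfl

theorem RealComp.iteratedDeriv_S {k : α → ℕ} {x : α → ℚ} (hk : Computable k) (hx : RatComp x) :
    RealComp fun a => iteratedDeriv (k a) S (x a) := by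
  have hx' : RatComp fun p : α × Mono => x p.1 := hx.comp (by fun_prop)
  have hm : RealComp fun p : α × Mono => mval p.2 (x p.1) := by
    have h1 : RatComp fun p : α × Mono => (-1 : ℚ) ^ p.2.1 * (p.2.2.1 : ℚ)
        * ((-(x p.1)⁻¹) ^ p.2.2.2.1 * ((1 - x p.1)⁻¹) ^ p.2.2.2.2.1) :=
      (((RatComp.const (-1)).pow (by fun_prop)).mul (RatComp.nat (by fun_prop))).mul
        ((hx'.inv.neg.pow (by fun_prop)).mul
          (((RatComp.const 1).sub hx').inv.pow (by fun_prop)))
    refine ((RealComp.ofRat h1).mul ((RealComp.step hx').pow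
      (n := fun p => p.2.2.2.2.2) (by fun_prop))).of_eq fun p => ?_
    simp [mval]
  have hs := RealComp.list_sum (L := fun a => spoly (k a)) (0, 0, 0, 0, 0) hm
    (computable_spoly.comp hk)
  refine (RealComp.ite (hx.le (RatComp.const 0)) RealComp.zero
    (RealComp.ite ((RatComp.const 1).le hx)
      (RealComp.ite (c_eq hk (Computable.const 0)) RealComp.one RealComp.zero) hs)).of_eq
    fun a => ?_
  split_ifs with h1 h2 h3
  · exact (iteratedDeriv_S_left _ (by exact_mod_cast h1)).symm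
  · rw [iteratedDeriv_S_right _ (by exact_mod_cast h2), if_pos h3]
  · rw [iteratedDeriv_S_right _ (by exact_mod_cast h2), if_neg h3]
  · rw [iteratedDeriv_S_mid _ ⟨by exact_mod_cast not_le.1 h1, by exact_mod_cast not_le.1 h2⟩]

end Vale.Agent.P113
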