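import Mathlib
import Vale.Agent.P113.Step

/-! Effective families of smooth functions of one variable. -/

open Set
open scoped ContDiff

namespace Vale.Agent.P113

theorem cd_nat {f : ℝ → ℝ} (hf : ContDiff ℝ ∞ f) (n : ℕ) : ContDiff ℝ n f :=
  hf.of_le (by exact_mod_cast le_top)

/-- Periodization of a function supported in the unit interval. -/
theorem per_local {φ : ℝ → ℝ} (h0 : ∀ x, x ≤ 0 → φ x = 0) (h1 : ∀ x, 1 ≤ x → φ x = 0) (s : ℝ) :
    (fun y => φ (Int.fract y)) =ᶠ[nhds s]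
      fun y => φ (y - ⌊s⌋) + φ (y - (⌊s⌋ - 1)) := by
  have hs : s ∈ Ioo ((⌊s⌋ : ℝ) - 1) (⌊s⌋ + 1) :=
    ⟨by linarith [Int.floor_le s], Int.lt_floor_add_one s⟩
  filter_upwards [isOpen_Ioo.mem_nhds hs] with y hy
  by_cases h : (⌊s⌋ : ℝ) ≤ y
  · have : ⌊y⌋ = ⌊s⌋ := Int.floor_eq_iff.2 ⟨h, hy.2⟩
    rw [Int.fract, this, h1 (y - (⌊s⌋ - 1)) (by linarith), add_zero]
  · have : ⌊y⌋ = ⌊s⌋ - 1 := Int.floor_eq_iff.2 ⟨by push_cast; exact hy.1.le,
      by push_cast; linarith [not_le.1 h]⟩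
    rw [Int.fract, this, h0 (y - ⌊s⌋) (by linarith [not_le.1 h]), zero_add]
    push_cast
    rfl

theorem per_contDiff {φ : ℝ → ℝ} (hφ : ContDiff ℝ ∞ φ) (h0 : ∀ x, x ≤ 0 → φ x = 0)
    (h1 : ∀ x, 1 ≤ x → φ x = 0) : ContDiff ℝ ∞ fun y => φ (Int.fract y) := by
  rw [contDiff_iff_contDiffAt]
  intro s
  refine ContDiffAt.congr_of_eventuallyEq ?_ (per_local h0 h1 s)
  exact ((hφ.comp (contDiff_id.sub contDiff_const)).add
    (hφ.comp (contDiff_id.sub contDiff_const))).contDiffAt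

theorem per_iteratedDeriv {φ : ℝ → ℝ} (hφ : ContDiff ℝ ∞ φ) (h0 : ∀ x, x ≤ 0 → φ x = 0)
    (h1 : ∀ x, 1 ≤ x → φ x = 0) (k : ℕ) (s : ℝ) :
    iteratedDeriv k (fun y => φ (Int.fract y)) s = iteratedDeriv k φ (Int.fract s) := by
  rw [(per_local h0 h1 s).iteratedDeriv_eq k]
  have a1 : ContDiff ℝ ∞ fun y => φ (y - ⌊s⌋) := hφ.comp (contDiff_id.sub contDiff_const)
  have a2 : ContDiff ℝ ∞ fun y => φ (y - (⌊s⌋ - 1)) := hφ.comp (contDiff_id.sub contDiff_const)
  rw [iteratedDeriv_fun_add (cd_nat a1 k).contDiffAt (cd_nat a2 k).contDiffAt,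
    iteratedDeriv_comp_sub_const, iteratedDeriv_comp_sub_const]
  have : iteratedDeriv k φ (s - (⌊s⌋ - 1)) = 0 := by
    rw [iteratedDeriv_eq_of_Ici hφ (contDiff_const (c := (0 : ℝ))) h1 k
      (by linarith [Int.floor_le s])]
    simp
  simp only [this, add_zero]
  rfl

/-- Families of smooth functions whose derivatives at rational points are computable. -/
structure Eff1 {α : Type} [Primcodable α] (F : α → ℝ → ℝ) : Prop where
  smooth : ∀ a, ContDiff ℝ ∞ (F a)
  comp : RealComp fun p : α × ℕ × QC => iteratedDeriv p.2.1 (F p.1) (qv p.2.2)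

variable {α β : Type} [Primcodable α] [Primcodable β]

theorem ratComp_qv {r : α → QC} (hr : Computable r) : RatComp fun a => qv (r a) :=
  ⟨r, hr, fun _ => rfl⟩

theorem c_choose {n k : α → ℕ} (hn : Computable n) (hk : Computable k) :
    Computable fun a => (n a).choose (k a) := by
  have h1 := c_factorial hn
  have h2 := c_factorial hk
  have h3 := c_factorial (f := fun a => n a - k a) (by fun_prop)
  refine (c_ite (c_le hk hn) (f := fun a => (n a).factorial / ((k a).factorial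
    * (n a - k a).factorial)) (g := fun _ => 0) (by fun_prop) (by fun_prop)).of_eq fun a => ?_
  split_ifs with h
  · exact (Nat.choose_eq_factorial_div_factorial h).symm
  · exact (Nat.choose_eq_zero_of_lt (not_le.1 h)).symm

namespace Eff1

theorem eval {F : α → ℝ → ℝ} (hF : Eff1 F) {g : β → α} {k : β → ℕ} {x : β → ℚ}
    (hg : Computable g) (hk : Computable k) (hx : RatComp x) :
    RealComp fun b => iteratedDeriv (k b) (F (g b)) (x b) := by
  obtain ⟨r, hr, e⟩ := hx
  refine (hF.comp.comp (g := fun b => (g b, k b, r b)) (by fun_prop)).of_eq fun b => ?_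
  simp only [e]

theorem of_eq {F G : α → ℝ → ℝ} (hF : Eff1 F) (h : ∀ a x, F a x = G a x) : Eff1 G := by
  have : F = G := funext fun a => funext (h a)
  exact this ▸ hF

theorem reindex {F : α → ℝ → ℝ} (hF : Eff1 F) {g : β → α} (hg : Computable g) :
    Eff1 fun b => F (g b) :=
  ⟨fun b => hF.smooth (g b), hF.eval (by fun_prop) (by fun_prop) (ratComp_qv (by fun_prop))⟩

theorem step : Eff1 fun _ : α => S :=
  ⟨fun _ => S_contDiff, RealComp.iteratedDeriv_S (by fun_prop) (ratComp_qv (by fun_prop))⟩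

theorem const {c : α → ℝ} (hc : RealComp c) : Eff1 fun a _ => c a := by
  refine ⟨fun _ => contDiff_const, ?_⟩
  refine (RealComp.ite (c_eq (f := fun p : α × ℕ × QC => p.2.1) (g := fun _ => 0) (by fun_prop)
    (by fun_prop)) (hc.comp (g := fun p : α × ℕ × QC => p.1) (by fun_prop))
    RealComp.zero).of_eq fun p => ?_
  rw [iteratedDeriv_const]

theorem id : Eff1 fun (_ : α) (x : ℝ) => x := by
  refine ⟨fun _ => contDiff_id, ?_⟩
  refine (RealComp.ite (c_eq (f := fun p : α × ℕ × QC => p.2.1) (g := fun _ => 0) (by fun_prop)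
    (by fun_prop)) (RealComp.ofRat (ratComp_qv (r := fun p : α × ℕ × QC => p.2.2) (by fun_prop)))
    (RealComp.ite (c_eq (f := fun p : α × ℕ × QC => p.2.1) (g := fun _ => 1) (by fun_prop)
      (by fun_prop)) RealComp.one RealComp.zero)).of_eq fun p => ?_
  rw [iteratedDeriv_fun_id]

theorem add {F G : α → ℝ → ℝ} (hF : Eff1 F) (hG : Eff1 G) : Eff1 fun a x => F a x + G a x := by
  refine ⟨fun a => (hF.smooth a).add (hG.smooth a), (hF.comp.add hG.comp).of_eq fun p => ?_⟩
  rw [iteratedDeriv_fun_add (cd_nat (hF.smooth _) _).contDiffAt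
    (cd_nat (hG.smooth _) _).contDiffAt]

theorem sub {F G : α → ℝ → ℝ} (hF : Eff1 F) (hG : Eff1 G) : Eff1 fun a x => F a x - G a x := by
  refine ⟨fun a => (hF.smooth a).sub (hG.smooth a), (hF.comp.sub hG.comp).of_eq fun p => ?_⟩
  rw [iteratedDeriv_fun_sub (cd_nat (hF.smooth _) _).contDiffAt
    (cd_nat (hG.smooth _) _).contDiffAt]

theorem mul {F G : α → ℝ → ℝ} (hF : Eff1 F) (hG : Eff1 G) : Eff1 fun a x => F a x * G a x := by
  refine ⟨fun a => (hF.smooth a).mul (hG.smooth a), ?_⟩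
  have h1 : RealComp fun q : (α × ℕ × QC) × ℕ => ((q.1.2.1.choose q.2 : ℕ) : ℝ)
      * iteratedDeriv q.2 (F q.1.1) (qv q.1.2.2)
      * iteratedDeriv (q.1.2.1 - q.2) (G q.1.1) (qv q.1.2.2) :=
    ((RealComp.nat (c_choose (by fun_prop) (by fun_prop))).mul
      (hF.eval (by fun_prop) (by fun_prop) (ratComp_qv (by fun_prop)))).mul
      (hG.eval (by fun_prop) (by fun_prop) (ratComp_qv (by fun_prop)))
  refine (h1.sum_range (n := fun p => p.2.1 + 1) (by fun_prop)).of_eq fun p => ?_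
  rw [iteratedDeriv_fun_mul (cd_nat (hF.smooth _) _).contDiffAt
    (cd_nat (hG.smooth _) _).contDiffAt]

theorem deriv {F : α → ℝ → ℝ} (hF : Eff1 F) : Eff1 fun a => deriv (F a) := by
  refine ⟨fun a => (contDiff_infty_iff_deriv.1 (hF.smooth a)).2, ?_⟩
  refine (hF.eval (g := fun p : α × ℕ × QC => p.1) (k := fun p => p.2.1 + 1) (by fun_prop)
    (by fun_prop) (ratComp_qv (r := fun p => p.2.2) (by fun_prop))).of_eq fun p => ?_
  rw [iteratedDeriv_succ']

theorem affine {F : α → ℝ → ℝ} (hF : Eff1 F) {c d : α → ℚ} (hc : RatComp c) (hd : RatComp d) :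
    Eff1 fun a x => F a (c a * x + d a) := by
  refine ⟨fun a => (hF.smooth a).comp ((contDiff_const.mul contDiff_id).add contDiff_const), ?_⟩
  have hc' : RatComp fun p : α × ℕ × QC => c p.1 := hc.comp (by fun_prop)
  have hd' : RatComp fun p : α × ℕ × QC => d p.1 := hd.comp (by fun_prop)
  refine ((RealComp.ofRat (hc'.pow (n := fun p => p.2.1) (by fun_prop))).mul
    (hF.eval (g := fun p : α × ℕ × QC => p.1) (k := fun p => p.2.1) (by fun_prop) (by fun_prop)
      ((hc'.mul (ratComp_qv (r := fun p => p.2.2) (by fun_prop))).add hd'))).of_eq fun p => ?_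
  have h1 : ContDiff ℝ ∞ fun y => F p.1 (y + d p.1) :=
    (hF.smooth _).comp (contDiff_id.add contDiff_const)
  rw [iteratedDeriv_comp_const_mul (f := fun y => F p.1 (y + d p.1)) (cd_nat h1 _),
    iteratedDeriv_comp_add_const]
  push_cast
  rfl

theorem per {F : α → ℝ → ℝ} (hF : Eff1 F) (h0 : ∀ a x, x ≤ 0 → F a x = 0)
    (h1 : ∀ a x, 1 ≤ x → F a x = 0) : Eff1 fun a x => F a (Int.fract x) := by
  refine ⟨fun a => per_contDiff (hF.smooth a) (h0 a) (h1 a), ?_⟩
  refine (hF.eval (g := fun p : α × ℕ × QC => p.1) (k := fun p => p.2.1) (by fun_prop)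
    (by fun_prop) (ratComp_qv (r := fun p => p.2.2) (by fun_prop)).fract).of_eq fun p => ?_
  rw [per_iteratedDeriv (hF.smooth _) (h0 _) (h1 _), Rat.cast_fract]

end Eff1

end Vale.Agent.P113
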