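import Mathlib
import Vale.Agent.P113.Defs

/-! An injective two-stack rewriting system that simulates a Turing machine. -/

namespace Vale.Agent.P113

/-- Raw machine descriptions. -/
abbrev MCode : Type := ℕ × ℕ × ℕ × List Bool × List (List (ℕ × ℕ × ℕ))

def nA (m : MCode) : ℕ := m.2.1 + 1
def nC (m : MCode) : ℕ := 4 * m.1
def nN (m : MCode) : ℕ := nA m + nC m * (nA m + 1)
def nK (m : MCode) : ℕ := nC m * nN m
def haltB (m : MCode) (q : ℕ) : Bool := m.2.2.2.1.getD q false
def tr (m : MCode) (q a : ℕ) : ℕ × ℕ × ℕ := (m.2.2.2.2.getD q []).getD a (0, 0, 0)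
def side (c : ℕ) : ℕ := c / 2 % 2
def recSym (m : MCode) (c s : ℕ) : ℕ := nA m + c * (nA m + 1) + (if s < nA m then s else nA m)
def nextC (m : MCode) (c s : ℕ) : ℕ :=
  if s < nA m then
    4 * (tr m (c / 4) s).1 + 2 * (if (tr m (c / 4) s).2.2 = 0 then 0 else 1) + side c
  else 4 * (c / 4) + 2 * side c + side c
def junk (m : MCode) (c s : ℕ) : List ℕ :=
  recSym m c s :: (if s < nA m then [] else [s])
def realL (m : MCode) (c s : ℕ) : List ℕ :=
  if s < nA m then (if (tr m (c / 4) s).2.2 = 2 then [(tr m (c / 4) s).2.1] else []) else []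
def realR (m : MCode) (c s : ℕ) : List ℕ :=
  if s < nA m then (if (tr m (c / 4) s).2.2 = 2 then [] else [(tr m (c / 4) s).2.1]) else []
def pushL (m : MCode) (c s : ℕ) : List ℕ :=
  (if side c = 0 then [] else junk m c s) ++ realL m c s
def pushR (m : MCode) (c s : ℕ) : List ℕ :=
  (if side c = 0 then junk m c s else []) ++ realR m c s
def srcL (c s : ℕ) : List ℕ := c :: (if side c = 0 then [s] else [])
def srcR (c s : ℕ) : List ℕ := if side c = 0 then [] else [s]
def imgL (m : MCode) (c s : ℕ) : List ℕ := nextC m c s :: pushL m c s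

/-- Abstract configurations: control, left stack, right stack. -/
abbrev ACfg : Type := ℕ × List ℕ × List ℕ

def top (a : ACfg) : ℕ := if side a.1 = 0 then a.2.1.headD 0 else a.2.2.headD 0
def restL (a : ACfg) : List ℕ := if side a.1 = 0 then a.2.1.tail else a.2.1
def restR (a : ACfg) : List ℕ := if side a.1 = 0 then a.2.2 else a.2.2.tail

def astep (m : MCode) (a : ACfg) : ACfg :=
  (nextC m a.1 (top a), pushL m a.1 (top a) ++ restL a, pushR m a.1 (top a) ++ restR a)

def ainit (c : PairCode) : ACfg := (4 * c.1.2.2.1 + 2, [], c.2)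

/-- The transition table stays within the declared ranges. -/
def GoodM (m : MCode) : Prop :=
  ∀ q < m.1, ∀ a < nA m, (tr m q a).1 < m.1 ∧ (tr m q a).2.1 < nA m

/-- All symbols of a word are digits. -/
def Dig (m : MCode) (l : List ℕ) : Prop := ∀ s ∈ l, s < nN m

/-- Well-formed abstract configurations. -/
def WF (m : MCode) (a : ACfg) : Prop := a.1 < nC m ∧ Dig m a.2.1 ∧ Dig m a.2.2

theorem side_cases (c : ℕ) : side c = 0 ∨ side c = 1 := by
  unfold side
  omega

theorem nA_le_nN (m : MCode) : nA m ≤ nN m := Nat.le_add_right _ _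

theorem nN_pos (m : MCode) : 0 < nN m := lt_of_lt_of_le (Nat.succ_pos _) (nA_le_nN m)

theorem nC_le_nN (m : MCode) : nC m ≤ nN m := by
  unfold nN
  nlinarith [Nat.zero_le (nA m), Nat.zero_le (nC m * nA m)]

theorem nA_le_recSym (m : MCode) (c s : ℕ) : nA m ≤ recSym m c s := by
  unfold recSym
  omega

theorem recSym_lt {m : MCode} {c : ℕ} (hc : c < nC m) (s : ℕ) : recSym m c s < nN m := by
  unfold recSym nN
  have h1 : (c + 1) * (nA m + 1) ≤ nC m * (nA m + 1) := Nat.mul_le_mul_right _ hc
  have h2 : (if s < nA m then s else nA m) ≤ nA m := by split_ifs <;> omega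
  nlinarith

theorem recSym_inj {m : MCode} {c s c' s' : ℕ} (h : recSym m c s = recSym m c' s') :
    c = c' ∧ (if s < nA m then s else nA m) = (if s' < nA m then s' else nA m) := by
  unfold recSym at h
  have h2 : (if s < nA m then s else nA m) < nA m + 1 := by split_ifs <;> omega
  have h3 : (if s' < nA m then s' else nA m) < nA m + 1 := by split_ifs <;> omega
  generalize (if s < nA m then s else nA m) = o at *
  generalize (if s' < nA m then s' else nA m) = o' at *
  have h4 : c * (nA m + 1) + o = c' * (nA m + 1) + o' := by omega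
  have h5 : c = c' := by
    have := congrArg (· / (nA m + 1)) h4
    simp only [mul_comm _ (nA m + 1), Nat.mul_add_div (Nat.succ_pos _), Nat.div_eq_of_lt h2,
      Nat.div_eq_of_lt h3] at this
    omega
  subst h5
  exact ⟨rfl, by omega⟩

theorem nextC_mod (m : MCode) (c s : ℕ) : nextC m c s % 2 = side c := by
  unfold nextC
  rcases side_cases c with h | h <;> split_ifs <;> omega

theorem nextC_lt {m : MCode} (hm : GoodM m) {c : ℕ} (hc : c < nC m) (s : ℕ) :
    nextC m c s < nC m := by
  unfold nC at hc ⊢
  unfold nextC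
  have := side_cases c
  split_ifs with h1 h2
  · have := (hm (c / 4) (by omega) s h1).1
    omega
  · have := (hm (c / 4) (by omega) s h1).1
    omega
  · omega

theorem Dig.nil (m : MCode) : Dig m [] := by simp [Dig]

theorem Dig.cons {m : MCode} {s : ℕ} {l : List ℕ} (hs : s < nN m) (hl : Dig m l) :
    Dig m (s :: l) := by
  intro x hx
  rcases List.mem_cons.1 hx with rfl | hx
  · exact hs
  · exact hl x hx

theorem Dig.append {m : MCode} {l l' : List ℕ} (hl : Dig m l) (hl' : Dig m l') :
    Dig m (l ++ l') := by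
  intro x hx
  rcases List.mem_append.1 hx with hx | hx
  · exact hl x hx
  · exact hl' x hx

theorem Dig.tail {m : MCode} {l : List ℕ} (hl : Dig m l) : Dig m l.tail :=
  fun x hx => hl x (List.mem_of_mem_tail hx)

theorem Dig.headD {m : MCode} {l : List ℕ} (hl : Dig m l) : l.headD 0 < nN m := by
  cases l with
  | nil => exact nN_pos m
  | cons s l => exact hl s (List.mem_cons_self)

theorem dig_junk {m : MCode} {c s : ℕ} (hc : c < nC m) (hs : s < nN m) : Dig m (junk m c s) := by
  refine Dig.cons (recSym_lt hc s) ?_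
  split_ifs
  · exact Dig.nil m
  · exact Dig.cons hs (Dig.nil m)

theorem tr_sym_lt {m : MCode} (hm : GoodM m) {c s : ℕ} (hc : c < nC m) (hs : s < nA m) :
    (tr m (c / 4) s).2.1 < nA m :=
  (hm (c / 4) (by unfold nC at hc; omega) s hs).2

theorem dig_pushL {m : MCode} (hm : GoodM m) {c s : ℕ} (hc : c < nC m) (hs : s < nN m) :
    Dig m (pushL m c s) := by
  refine Dig.append ?_ ?_
  · split_ifs
    · exact Dig.nil m
    · exact dig_junk hc hs
  · unfold realL
    split_ifs with h1 h2
    · exact Dig.cons ((tr_sym_lt hm hc h1).trans_le (nA_le_nN m)) (Dig.nil m)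
    · exact Dig.nil m
    · exact Dig.nil m

theorem dig_pushR {m : MCode} (hm : GoodM m) {c s : ℕ} (hc : c < nC m) (hs : s < nN m) :
    Dig m (pushR m c s) := by
  refine Dig.append ?_ ?_
  · split_ifs
    · exact dig_junk hc hs
    · exact Dig.nil m
  · unfold realR
    split_ifs with h1 h2
    · exact Dig.nil m
    · exact Dig.cons ((tr_sym_lt hm hc h1).trans_le (nA_le_nN m)) (Dig.nil m)
    · exact Dig.nil m

theorem dig_imgL {m : MCode} (hm : GoodM m) {c s : ℕ} (hc : c < nC m) (hs : s < nN m) :
    Dig m (imgL m c s) :=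
  Dig.cons ((nextC_lt hm hc s).trans_le (nC_le_nN m)) (dig_pushL hm hc hs)

theorem dig_srcL {m : MCode} {c s : ℕ} (hc : c < nC m) (hs : s < nN m) : Dig m (srcL c s) := by
  refine Dig.cons (hc.trans_le (nC_le_nN m)) ?_
  split_ifs
  · exact Dig.cons hs (Dig.nil m)
  · exact Dig.nil m

theorem dig_srcR {m : MCode} (c : ℕ) {s : ℕ} (hs : s < nN m) : Dig m (srcR c s) := by
  unfold srcR
  split_ifs
  · exact Dig.nil m
  · exact Dig.cons hs (Dig.nil m)

theorem WF.top_lt {m : MCode} {a : ACfg} (h : WF m a) : top a < nN m := by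
  unfold top
  split_ifs
  · exact h.2.1.headD
  · exact h.2.2.headD

theorem WF.dig_restL {m : MCode} {a : ACfg} (h : WF m a) : Dig m (restL a) := by
  unfold restL
  split_ifs
  · exact h.2.1.tail
  · exact h.2.1

theorem WF.dig_restR {m : MCode} {a : ACfg} (h : WF m a) : Dig m (restR a) := by
  unfold restR
  split_ifs
  · exact h.2.2
  · exact h.2.2.tail

theorem WF.astep {m : MCode} (hm : GoodM m) {a : ACfg} (h : WF m a) : WF m (astep m a) :=
  ⟨nextC_lt hm h.1 _, (dig_pushL hm h.1 h.top_lt).append h.dig_restL,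
    (dig_pushR hm h.1 h.top_lt).append h.dig_restR⟩

/-- Two words differ at some position where both are defined. -/
inductive Apart : List ℕ → List ℕ → Prop
  | head {a b : ℕ} (u v : List ℕ) : a ≠ b → Apart (a :: u) (b :: v)
  | tail (a : ℕ) {u v : List ℕ} : Apart u v → Apart (a :: u) (a :: v)

theorem Apart.cons_of (a b : ℕ) {u v : List ℕ} (h : a = b → Apart u v) :
    Apart (a :: u) (b :: v) := by
  by_cases hab : a = b
  · subst hab
    exact Apart.tail a (h rfl)
  · exact Apart.head u v hab

theorem src_apart {c s c' s' : ℕ} (h : (c, s) ≠ (c', s')) :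
    Apart (srcL c s) (srcL c' s') ∨ Apart (srcR c s) (srcR c' s') := by
  by_cases hc : c = c'
  · subst hc
    have hs : s ≠ s' := fun h' => h (by rw [h'])
    by_cases h0 : side c = 0
    · left
      simp only [srcL, h0, if_true]
      exact Apart.tail _ (Apart.head _ _ hs)
    · right
      simp only [srcR, h0, if_false]
      exact Apart.head _ _ hs
  · exact Or.inl (Apart.head _ _ hc)

theorem junk_apart {m : MCode} {c s c' s' : ℕ} (h : (c, s) ≠ (c', s')) (l l' : List ℕ) :
    Apart (junk m c s ++ l) (junk m c' s' ++ l') := by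
  simp only [junk, List.cons_append]
  refine Apart.cons_of _ _ fun hr => ?_
  obtain ⟨rfl, ho⟩ := recSym_inj hr
  have hs : s ≠ s' := fun h' => h (by rw [h'])
  by_cases h1 : s < nA m <;> by_cases h2 : s' < nA m <;> simp only [h1, h2, if_true, if_false] at ho ⊢
  · exact absurd ho hs
  · omega
  · omega
  · exact Apart.head _ _ hs

theorem img_apart {m : MCode} {c s c' s' : ℕ} (h : (c, s) ≠ (c', s')) :
    Apart (imgL m c s) (imgL m c' s') ∨ Apart (pushR m c s) (pushR m c' s') := by
  by_cases hs : side c = side c'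
  · by_cases h0 : side c = 0
    · right
      simp only [pushR, ← hs, h0, if_true]
      exact junk_apart h _ _
    · left
      simp only [imgL, pushL, ← hs, h0, if_false]
      exact Apart.cons_of _ _ fun _ => junk_apart h _ _
  · left
    refine Apart.head _ _ fun h' => hs ?_
    rw [← nextC_mod m c s, h', nextC_mod]

end Vale.Agent.P113
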