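import Mathlib
import Vale.Agent.P113.Classical
import Vale.Agent.P113.Step

/-! Trajectories of a sequence of shear flows. -/

open Set
open scoped ContDiff

namespace Vale.Agent.P113

theorem S_left {x : ℝ} (hx : x ≤ 0) : S x = 0 := Real.smoothTransition.zero_of_nonpos hx

theorem S_right {x : ℝ} (hx : 1 ≤ x) : S x = 1 := Real.smoothTransition.one_of_one_le hx

theorem S_nonneg (x : ℝ) : 0 ≤ S x := Real.smoothTransition.nonneg x

theorem S_le_one (x : ℝ) : S x ≤ 1 := Real.smoothTransition.le_one x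

theorem deriv_S_left {x : ℝ} (hx : x ≤ 0) : deriv S x = 0 := by
  have := iteratedDeriv_S_left 1 hx
  rwa [iteratedDeriv_one] at this

theorem deriv_S_right {x : ℝ} (hx : 1 ≤ x) : deriv S x = 0 := by
  have := iteratedDeriv_S_right 1 hx
  rwa [iteratedDeriv_one, if_neg one_ne_zero] at this

theorem hasDerivAt_S_sub (t c : ℝ) : HasDerivAt (fun t => S (t - c)) (deriv S (t - c)) t :=
  ((S_contDiff.differentiable (by simp) (t - c)).hasDerivAt).comp_sub_const t c

/-- On the time interval `[n, n+1)` the field `u` is the shear with profile `ψ n` in the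
direction `d n`. -/
structure IsShearSeq (u : ℝ → T3 → Fin 3 → ℝ) (d : ℕ → Fin 3) (ψ : ℕ → T3 → ℝ) : Prop where
  eq : ∀ (n : ℕ) (t : ℝ), (n : ℝ) ≤ t → t < n + 1 → ∀ x,
    u t x = Pi.single (d n) (deriv S (t - n) * ψ n x)
  inv : ∀ (n : ℕ) (x : T3) (s : ℝ), ψ n (x + Pi.single (d n) (s : UnitAddCircle)) = ψ n x

/-- Positions at integer times. -/
noncomputable def posSeq (d : ℕ → Fin 3) (ψ : ℕ → T3 → ℝ) (a : Fin 3 → ℝ) : ℕ → Fin 3 → ℝ
  | 0 => a
  | n + 1 => posSeq d ψ a n + Pi.single (d n) (ψ n (proj (posSeq d ψ a n)))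

theorem IsShearSeq.traj_eq {u : ℝ → T3 → Fin 3 → ℝ} {d : ℕ → Fin 3} {ψ : ℕ → T3 → ℝ}
    (h : IsShearSeq u d ψ) {a : Fin 3 → ℝ} {X : ℝ → T3} (hX : IsTrajectory u (proj a) X)
    (n : ℕ) : ∀ t, (n : ℝ) ≤ t → t ≤ n + 1 → X t = proj (posSeq d ψ a n
      + Pi.single (d n) (S (t - n) * ψ n (proj (posSeq d ψ a n)))) := by
  obtain ⟨h0, Y, hY⟩ := hX
  have hcont : ContinuousOn Y (Ici 0) := fun t ht => (hY t ht).2.continuousWithinAt
  have stage : ∀ n : ℕ, X n = proj (posSeq d ψ a n) → ∀ t, (n : ℝ) ≤ t → t ≤ n + 1 →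
      X t = proj (posSeq d ψ a n
        + Pi.single (d n) (S (t - n) * ψ n (proj (posSeq d ψ a n)))) := by
    intro n hn
    have hn0 : (0 : ℝ) ≤ n := Nat.cast_nonneg n
    have hc : ContinuousOn Y (Icc (n : ℝ) (n + 1)) := hcont.mono fun t ht => hn0.trans ht.1
    have hd : ∀ t ∈ Ico (n : ℝ) (n + 1), HasDerivWithinAt Y
        (Pi.single (d n) (deriv S (t - n) * ψ n (X t))) (Ici t) t := by
      intro t ht
      have := (hY t (hn0.trans ht.1)).2.mono (Ici_subset_Ici.2 (hn0.trans ht.1))
      rwa [h.eq n t ht.1 ht.2] at this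
    have hoff : ∀ j, j ≠ d n → ∀ t ∈ Icc (n : ℝ) (n + 1), Y t j = Y n j := by
      intro j hj
      refine constant_of_has_deriv_right_zero (f := fun t => Y t j)
        ((continuous_apply j).comp_continuousOn hc) fun t ht => ?_
      have := (hasDerivWithinAt_pi.1 (hd t ht)) j
      rwa [Pi.single_eq_of_ne hj] at this
    have hform : ∀ t ∈ Icc (n : ℝ) (n + 1), Y t = Y n + Pi.single (d n) (Y t (d n) - Y n (d n)) := by
      intro t ht
      funext j
      by_cases hj : j = d n
      · subst hj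
        simp
      · simp [Pi.single_eq_of_ne hj, hoff j hj t ht]
    have hψ : ∀ t ∈ Icc (n : ℝ) (n + 1), ψ n (X t) = ψ n (X n) := by
      intro t ht
      rw [(hY t (hn0.trans ht.1)).1, hform t ht, proj_add_single, h.inv, ← (hY n hn0).1]
    have hon : ∀ t ∈ Icc (n : ℝ) (n + 1),
        Y t (d n) - S (t - n) * ψ n (X n) = Y n (d n) - S (n - n) * ψ n (X n) := by
      refine constant_of_has_deriv_right_zero
        (f := fun t => Y t (d n) - S (t - n) * ψ n (X n))
        (((continuous_apply (d n)).comp_continuousOn hc).sub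
          ((S_contDiff.continuous.comp (continuous_id.sub continuous_const)).mul
            continuous_const).continuousOn) fun t ht => ?_
      have h1 := (hasDerivWithinAt_pi.1 (hd t ht)) (d n)
      rw [Pi.single_eq_same, hψ t (Ico_subset_Icc_self ht)] at h1
      have h2 := ((hasDerivAt_S_sub t n).mul_const (ψ n (X n))).hasDerivWithinAt (s := Ici t)
      simpa using h1.fun_sub h2
    intro t h1 h2
    have h3 := hon t ⟨h1, h2⟩
    rw [sub_self, S_left le_rfl, zero_mul, sub_zero] at h3
    have h4 : Y t (d n) - Y n (d n) = S (t - n) * ψ n (X n) := by linarith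
    rw [(hY t (hn0.trans h1)).1, hform t ⟨h1, h2⟩, h4, proj_add_single, proj_add_single,
      ← (hY n hn0).1, hn]
  have hint : ∀ n : ℕ, X n = proj (posSeq d ψ a n) := by
    intro n
    induction n with
    | zero => simpa [posSeq] using h0
    | succ n ih =>
      have := stage n ih (n + 1) (by linarith) le_rfl
      rw [add_sub_cancel_left, S_right le_rfl, one_mul] at this
      push_cast
      exact this
  exact stage n (hint n)

theorem IsShearSeq.exists_traj {u : ℝ → T3 → Fin 3 → ℝ} {d : ℕ → Fin 3} {ψ : ℕ → T3 → ℝ}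
    (h : IsShearSeq u d ψ) (a : Fin 3 → ℝ) : ∃ X, IsTrajectory u (proj a) X := by
  set Δ : ℕ → ℝ := fun n => ψ n (proj (posSeq d ψ a n)) with hΔ
  set YN : ℕ → ℝ → Fin 3 → ℝ := fun N t =>
    a + ∑ n ∈ Finset.range N, (Pi.single (d n) (S (t - n) * Δ n) : Fin 3 → ℝ) with hYN
  have hstab : ∀ (N M : ℕ) (t : ℝ), N ≤ M → t ≤ N → YN M t = YN N t := by
    intro N M t hNM ht
    induction M, hNM using Nat.le_induction with
    | base => rfl
    | succ M hM ih =>
      rw [← ih]
      simp only [hYN, Finset.sum_range_succ]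
      have : t - M ≤ 0 := by
        have : (N : ℝ) ≤ M := by exact_mod_cast hM
        linarith
      rw [S_left this]
      simp
  have hpos : ∀ (N : ℕ) (t : ℝ), (N : ℝ) ≤ t → YN N t = posSeq d ψ a N := by
    intro N
    induction N with
    | zero => intro t _; simp [hYN, posSeq]
    | succ N ih =>
      intro t ht
      push_cast at ht
      have h3 : YN (N + 1) t = YN N t + Pi.single (d N) (S (t - N) * Δ N) := by
        simp only [hYN, Finset.sum_range_succ, add_assoc]
      rw [h3, ih t (by linarith), S_right (by linarith), one_mul, posSeq]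
  refine ⟨fun t => proj (YN (⌊t⌋₊ + 1) t), ?_, fun t => YN (⌊t⌋₊ + 1) t, fun t ht => ⟨rfl, ?_⟩⟩
  · simp [hYN]
  · set n := ⌊t⌋₊ with hn
    have h1 : (n : ℝ) ≤ t := Nat.floor_le ht
    have h2 : t < n + 1 := Nat.lt_floor_add_one t
    have e : (fun s => YN (⌊s⌋₊ + 1) s) =ᶠ[nhds t] YN (n + 1) := by
      filter_upwards [isOpen_Iio.mem_nhds h2] with s hs
      have hs' : s < n + 1 := hs
      have : ⌊s⌋₊ ≤ n := by
        have := Nat.floor_le_floor hs'.le
        rcases le_or_gt 0 s with h0 | h0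
        · exact Nat.lt_succ_iff.1 ((Nat.floor_lt h0).2 (by exact_mod_cast hs'))
        · simp [Nat.floor_of_nonpos h0.le]
      refine (hstab _ _ s (by omega) ?_).symm
      push_cast
      exact (Nat.lt_floor_add_one s).le
    have hval : YN (n + 1) t = posSeq d ψ a n + Pi.single (d n) (S (t - n) * Δ n) := by
      rw [← hpos n t h1]
      simp only [hYN, Finset.sum_range_succ, add_assoc]
    have hder : HasDerivAt (YN (n + 1)) (∑ m ∈ Finset.range (n + 1),
        (Pi.single (d m) (deriv S (t - m) * Δ m) : Fin 3 → ℝ)) t := by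
      refine HasDerivAt.const_add a (HasDerivAt.fun_sum fun m _ => ?_)
      rw [hasDerivAt_pi]
      intro j
      by_cases hj : j = d m
      · subst hj
        simpa using (hasDerivAt_S_sub t m).mul_const (Δ m)
      · simpa [Pi.single_eq_of_ne hj] using hasDerivAt_const t (0 : ℝ)
    refine ((hder.congr_of_eventuallyEq e).congr_deriv ?_).hasDerivWithinAt
    beta_reduce
    rw [h.eq n t h1 h2, hval, proj_add_single, h.inv, Finset.sum_range_succ,
      Finset.sum_eq_zero, zero_add]
    intro m hm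
    have : (m : ℝ) + 1 ≤ n := by exact_mod_cast Finset.mem_range.1 hm
    rw [deriv_S_right (by linarith)]
    simp

end Vale.Agent.P113
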