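import Mathlib
import Vale.Agent.P113.Rules
import Vale.Agent.P113.Traj

/-! Intervals, plateau functions and Cantor encodings. -/

open Set
open scoped ContDiff

namespace Vale.Agent.P113

/-- An interval given by its left end and its length. -/
abbrev Iv : Type := ℚ × ℚ

/-- Affine parametrization of an interval. -/
noncomputable def Iv.pt (I : Iv) (σ : ℝ) : ℝ := I.1 + I.2 * σ

def Iv.Valid (I : Iv) : Prop := 0 ≤ I.1 ∧ 0 < I.2 ∧ I.1 + I.2 ≤ 1

instance (I : Iv) : Decidable I.Valid := by unfold Iv.Valid; infer_instance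

def Iv.Sep (I J : Iv) : Prop := ∀ ξ ∈ Ioo (0 : ℝ) 1, ∀ η ∈ Ioo (0 : ℝ) 1, I.pt ξ ≠ J.pt η

/-- An interval with the two coefficients of an affine function. -/
abbrev Desc : Type := Iv × ℚ × ℚ

noncomputable def plateau (B : ℚ) (σ : ℝ) : ℝ := S (B * σ + (0 : ℚ)) - S (B * σ + (1 - B : ℚ))

noncomputable def facFun (B : ℚ) (D : Desc) (s : ℝ) : ℝ :=
  (if D.1.Valid then 1 else 0) * ((D.2.1 * ((D.1.2⁻¹ : ℚ) * s + (-D.1.1 / D.1.2 : ℚ)) + D.2.2)
    * plateau B ((D.1.2⁻¹ : ℚ) * s + (-D.1.1 / D.1.2 : ℚ)))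

theorem plateau_left {B : ℚ} (hB : 1 ≤ B) {σ : ℝ} (h : σ ≤ 0) : plateau B σ = 0 := by
  have hB' : (1 : ℝ) ≤ B := by exact_mod_cast hB
  have : (B : ℝ) * σ ≤ 0 := mul_nonpos_of_nonneg_of_nonpos (by linarith) h
  unfold plateau
  rw [S_left (by push_cast; linarith), S_left (by push_cast; linarith), sub_zero]

theorem plateau_right {B : ℚ} (hB : 1 ≤ B) {σ : ℝ} (h : 1 ≤ σ) : plateau B σ = 0 := by
  have hB' : (1 : ℝ) ≤ B := by exact_mod_cast hB
  have : (B : ℝ) ≤ B * σ := le_mul_of_one_le_right (by linarith) h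
  unfold plateau
  rw [S_right (by push_cast; linarith), S_right (by push_cast; linarith), sub_self]

/-- The inner range on which the plateau equals one. -/
def Inner (B : ℚ) : Set ℝ := Icc (1 / (B : ℝ)) (1 - 1 / (B : ℝ))

theorem Inner.mem_Ioo {B : ℚ} (hB : 1 ≤ B) {σ : ℝ} (h : σ ∈ Inner B) : σ ∈ Ioo (0 : ℝ) 1 := by
  have hB' : (1 : ℝ) ≤ B := by exact_mod_cast hB
  have : 0 < 1 / (B : ℝ) := by positivity
  exact ⟨by linarith [h.1], by linarith [h.2]⟩

theorem plateau_inner {B : ℚ} (hB : 1 ≤ B) {σ : ℝ} (h : σ ∈ Inner B) : plateau B σ = 1 := by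
  have hB' : (1 : ℝ) ≤ B := by exact_mod_cast hB
  have hB0 : (0 : ℝ) < B := by linarith
  have h1 : 1 ≤ B * σ := by
    have := h.1
    rwa [div_le_iff₀' hB0] at this
  have h2 : B * σ ≤ B - 1 := by
    have := mul_le_mul_of_nonneg_left h.2 hB0.le
    rwa [mul_sub, mul_one, mul_one_div_cancel hB0.ne'] at this
  unfold plateau
  rw [S_right (by push_cast; linarith), S_left (by push_cast; linarith), sub_zero]

theorem norm_pt {I : Iv} (h : I.Valid) (σ : ℝ) :
    ((I.2⁻¹ : ℚ) : ℝ) * I.pt σ + (-I.1 / I.2 : ℚ) = σ := by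
  have : (I.2 : ℝ) ≠ 0 := by exact_mod_cast h.2.1.ne'
  unfold Iv.pt
  push_cast
  field_simp
  ring

theorem pt_norm {I : Iv} (h : I.Valid) (s : ℝ) :
    I.pt (((I.2⁻¹ : ℚ) : ℝ) * s + (-I.1 / I.2 : ℚ)) = s := by
  have : (I.2 : ℝ) ≠ 0 := by exact_mod_cast h.2.1.ne'
  unfold Iv.pt
  push_cast
  field_simp
  ring

theorem facFun_pt {B : ℚ} (hB : 1 ≤ B) {D : Desc} (h : D.1.Valid) {σ : ℝ} (hσ : σ ∈ Inner B) :
    facFun B D (D.1.pt σ) = D.2.1 * σ + D.2.2 := by
  unfold facFun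
  rw [if_pos h, norm_pt h, plateau_inner hB hσ, one_mul, mul_one]

theorem facFun_eq_zero {B : ℚ} (hB : 1 ≤ B) {D : Desc} {s : ℝ}
    (h : D.1.Valid → ∀ η ∈ Ioo (0 : ℝ) 1, s ≠ D.1.pt η) : facFun B D s = 0 := by
  unfold facFun
  split_ifs with hv
  · have hp : plateau B ((D.1.2⁻¹ : ℚ) * s + (-D.1.1 / D.1.2 : ℚ)) = 0 := by
      by_cases h1 : ((D.1.2⁻¹ : ℚ) : ℝ) * s + (-D.1.1 / D.1.2 : ℚ) ≤ 0
      · exact plateau_left hB h1
      · by_cases h2 : 1 ≤ ((D.1.2⁻¹ : ℚ) : ℝ) * s + (-D.1.1 / D.1.2 : ℚ)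
        · exact plateau_right hB h2
        · exact absurd (pt_norm hv s).symm (h hv _ ⟨not_le.1 h1, not_le.1 h2⟩)
    rw [hp, mul_zero, mul_zero]
  · exact zero_mul _

theorem Iv.Valid.pt_mem {I : Iv} (h : I.Valid) {σ : ℝ} (hσ : σ ∈ Ioo (0 : ℝ) 1) :
    I.pt σ ∈ Ioo (0 : ℝ) 1 := by
  have h1 : (0 : ℝ) ≤ I.1 := by exact_mod_cast h.1
  have h2 : (0 : ℝ) < I.2 := by exact_mod_cast h.2.1
  have h3 : (I.1 : ℝ) + I.2 ≤ 1 := by exact_mod_cast h.2.2
  unfold Iv.pt
  exact ⟨by nlinarith [mul_pos h2 hσ.1], by nlinarith [mul_lt_mul_of_pos_left hσ.2 h2]⟩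

theorem facFun_left {B : ℚ} (hB : 1 ≤ B) (D : Desc) {s : ℝ} (hs : s ≤ 0) : facFun B D s = 0 :=
  facFun_eq_zero hB fun hv η hη h => by linarith [(hv.pt_mem hη).1]

theorem facFun_right {B : ℚ} (hB : 1 ≤ B) (D : Desc) {s : ℝ} (hs : 1 ≤ s) : facFun B D s = 0 :=
  facFun_eq_zero hB fun hv η hη h => by linarith [(hv.pt_mem hη).2]

theorem facFun_sep {B : ℚ} (hB : 1 ≤ B) {I : Iv} {D : Desc} (h : I.Sep D.1) {σ : ℝ}
    (hσ : σ ∈ Inner B) : facFun B D (I.pt σ) = 0 :=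
  facFun_eq_zero hB fun _ η hη => h σ (Inner.mem_Ioo hB hσ) η hη

/-- The base of the expansion. -/
def base (m : MCode) : ℚ := (nN m : ℚ) + 2

theorem one_le_base (m : MCode) : 1 ≤ base m := by
  unfold base
  have : (0 : ℚ) ≤ nN m := Nat.cast_nonneg _
  linarith

/-- The interval of all expansions that start with the word `u`. -/
def wordIv (B : ℚ) (u : List ℕ) : Iv :=
  (u.foldr (fun (a : ℕ) (v : ℚ) => (v + a + 1) / B) 0, (1 / B) ^ u.length)

theorem wordIv_nil (B : ℚ) (σ : ℝ) : (wordIv B []).pt σ = σ := by simp [wordIv, Iv.pt]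

theorem wordIv_cons (B : ℚ) (a : ℕ) (u : List ℕ) (σ : ℝ) :
    (wordIv B (a :: u)).pt σ = ((wordIv B u).pt σ + a + 1) / B := by
  simp only [wordIv, Iv.pt, List.foldr_cons, List.length_cons, pow_succ]
  push_cast
  ring

theorem wordIv_append (B : ℚ) (u v : List ℕ) (σ : ℝ) :
    (wordIv B (u ++ v)).pt σ = (wordIv B u).pt ((wordIv B v).pt σ) := by
  induction u with
  | nil => rw [List.nil_append, wordIv_nil]
  | cons a u ih => rw [List.cons_append, wordIv_cons, wordIv_cons, ih]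

theorem base_cast (m : MCode) : ((base m : ℚ) : ℝ) = (nN m : ℝ) + 2 := by simp [base]

theorem digit_mem {m : MCode} {a : ℕ} (ha : a < nN m) {v : ℝ} (hv : v ∈ Icc (0 : ℝ) 1) :
    (v + a + 1) / (base m : ℝ) ∈ Inner (base m) := by
  have h1 : (a : ℝ) + 1 ≤ nN m := by exact_mod_cast ha
  have h0 : (0 : ℝ) ≤ a := Nat.cast_nonneg a
  have hB : (0 : ℝ) < base m := by rw [base_cast]; positivity
  refine ⟨div_le_div_of_nonneg_right (by linarith [hv.1]) hB.le, ?_⟩
  rw [div_le_iff₀ hB, sub_mul, one_div_mul_cancel hB.ne', base_cast]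
  linarith [hv.2]

theorem wordIv_mem_Icc {m : MCode} {u : List ℕ} (hu : Dig m u) {σ : ℝ} (hσ : σ ∈ Icc (0 : ℝ) 1) :
    (wordIv (base m) u).pt σ ∈ Icc (0 : ℝ) 1 := by
  induction u with
  | nil => rwa [wordIv_nil]
  | cons a u ih =>
    rw [wordIv_cons]
    exact Ioo_subset_Icc_self (Inner.mem_Ioo (one_le_base m)
      (digit_mem (hu a List.mem_cons_self) (ih fun x hx => hu x (List.mem_cons_of_mem _ hx))))

theorem wordIv_valid {m : MCode} {u : List ℕ} (hu : Dig m u) : (wordIv (base m) u).Valid := by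
  have h0 := (wordIv_mem_Icc hu (σ := 0) (by simp)).1
  have h1 := (wordIv_mem_Icc hu (σ := 1) (by simp)).2
  simp only [Iv.pt, mul_zero, add_zero, mul_one] at h0 h1
  refine ⟨by exact_mod_cast h0, ?_, by exact_mod_cast h1⟩
  have := one_le_base m
  simp only [wordIv]
  positivity

theorem wordIv_sep {m : MCode} {u v : List ℕ} (h : Apart u v) (hu : Dig m u) (hv : Dig m v) :
    (wordIv (base m) u).Sep (wordIv (base m) v) := by
  have hB : (0 : ℝ) < base m := by rw [base_cast]; positivity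
  induction h with
  | @head a b u v hab =>
    intro ξ hξ η hη he
    have h1 := (wordIv_valid (u := u) fun x hx => hu x (List.mem_cons_of_mem _ hx)).pt_mem hξ
    have h2 := (wordIv_valid (u := v) fun x hx => hv x (List.mem_cons_of_mem _ hx)).pt_mem hη
    rw [wordIv_cons, wordIv_cons, div_left_inj' hB.ne'] at he
    rcases lt_or_gt_of_ne hab with h | h
    · have : (a : ℝ) + 1 ≤ b := by exact_mod_cast h
      linarith [h1.2, h2.1]
    · have : (b : ℝ) + 1 ≤ a := by exact_mod_cast h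
      linarith [h1.1, h2.2]
  | @tail a u v _ ih =>
    intro ξ hξ η hη he
    rw [wordIv_cons, wordIv_cons, div_left_inj' hB.ne'] at he
    exact ih (fun x hx => hu x (List.mem_cons_of_mem _ hx))
      (fun x hx => hv x (List.mem_cons_of_mem _ hx)) ξ hξ η hη (by linarith)

/-- The rational number that encodes a stack. -/
def valQ (m : MCode) (u : List ℕ) : ℚ :=
  (wordIv (base m) u).1 + (wordIv (base m) u).2 * (base m - 1)⁻¹

theorem valQ_cast (m : MCode) (u : List ℕ) :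
    (valQ m u : ℝ) = (wordIv (base m) u).pt ((base m : ℝ) - 1)⁻¹ := by
  simp [valQ, Iv.pt]

theorem valQ_append (m : MCode) (u v : List ℕ) :
    (valQ m (u ++ v) : ℝ) = (wordIv (base m) u).pt (valQ m v) := by
  rw [valQ_cast, valQ_cast, wordIv_append]

theorem valQ_head (m : MCode) (u : List ℕ) :
    (valQ m u : ℝ) = (wordIv (base m) [u.headD 0]).pt (valQ m u.tail) := by
  cases u with
  | nil =>
    have h : (0 : ℝ) ≤ nN m := Nat.cast_nonneg _
    rw [List.tail_nil, valQ_cast, wordIv_cons, wordIv_nil, wordIv_nil, base_cast]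
    simp only [List.headD_nil, Nat.cast_zero]
    have : (nN m : ℝ) + 2 - 1 = nN m + 1 := by ring
    rw [this]
    field_simp
    ring
  | cons a u => exact valQ_append m [a] u

theorem valQ_mem {m : MCode} {u : List ℕ} (hu : Dig m u) : (valQ m u : ℝ) ∈ Inner (base m) := by
  rw [valQ_head, wordIv_cons, wordIv_nil, valQ_cast]
  refine digit_mem hu.headD (wordIv_mem_Icc hu.tail ?_)
  have h : (0 : ℝ) ≤ nN m := Nat.cast_nonneg _
  rw [base_cast]
  exact ⟨inv_nonneg.2 (by linarith), inv_le_one_of_one_le₀ (by linarith)⟩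

end Vale.Agent.P113
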