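import Mathlib
import Vale.Agent.P113.Geom

/-! Nine shears realize one step of the two-stack system. -/

open Set
open scoped ContDiff

namespace Vale.Agent.P113

def ivU1 (m : MCode) (k : ℕ) : Iv := wordIv (base m) (srcL (k / nN m) (k % nN m))
def ivU2 (m : MCode) (k : ℕ) : Iv := wordIv (base m) (srcR (k / nN m) (k % nN m))
def ivV1 (m : MCode) (k : ℕ) : Iv := wordIv (base m) (imgL m (k / nN m) (k % nN m))
def ivV2 (m : MCode) (k : ℕ) : Iv := wordIv (base m) (pushR m (k / nN m) (k % nN m))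
def eta (m : MCode) : ℚ := (2 * (nK m : ℚ) + 2)⁻¹
def ivZ (m : MCode) (k : ℕ) : Iv := (k * eta m, eta m)
def hflag (m : MCode) (k : ℕ) : ℚ := cond (haltB m (k / nN m / 4)) (1 / 2) 0

/-- Direction of the shear in each time slot. -/
def dir : ℕ → Fin 3
  | 0 => 0
  | 1 => 1
  | 3 => 0
  | 6 => 1
  | 9 => 0
  | _ => 2

/-- A dummy descriptor. -/
def d0 : Desc := ((0, 1), 0, 0)

/-- The factors of the shear profile in each time slot. -/
def desc (m : MCode) (k : ℕ) : ℕ → Fin 3 → Desc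
  | 2 => ![(ivU1 m k, eta m, k * eta m + hflag m k), (ivU2 m k, 0, 1), d0]
  | 3 => ![d0, (ivU2 m k, 0, 1),
      (ivZ m k, eta m - (ivU1 m k).2, k * eta m - (ivU1 m k).1)]
  | 4 => ![(ivZ m k, -eta m, 0), (ivU2 m k, 0, 1), d0]
  | 5 => ![(ivZ m k, 0, 1), (ivU2 m k, eta m, 0), d0]
  | 6 => ![(ivZ m k, 0, 1), d0,
      (ivZ m k, (ivV2 m k).2 - (ivU2 m k).2, (ivV2 m k).1 - (ivU2 m k).1)]
  | 7 => ![(ivZ m k, 0, 1), (ivV2 m k, -eta m, 0), d0]
  | 8 => ![(ivZ m k, eta m, 0), (ivV2 m k, 0, 1), d0]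
  | 9 => ![d0, (ivV2 m k, 0, 1),
      (ivZ m k, (ivV1 m k).2 - eta m, (ivV1 m k).1 - k * eta m)]
  | _ => ![(ivV1 m k, -eta m, -(k * eta m)), (ivV2 m k, 0, 1), d0]

/-- The representative in `[0,1)` of a point of the circle. -/
noncomputable def rep (θ : UnitAddCircle) : ℝ := (AddCircle.equivIco 1 0 θ : ℝ)

theorem rep_coe (s : ℝ) : rep (s : UnitAddCircle) = Int.fract s := by
  simp [rep]

/-- Spatial factors. -/
noncomputable def sf (m : MCode) (j k : ℕ) (l : Fin 3) (s : ℝ) : ℝ :=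
  if l = dir j then 1 else facFun (base m) (desc m k j l) s

/-- The shear profile in slot `j`. -/
noncomputable def prof (m : MCode) (j : ℕ) (x : T3) : ℝ :=
  ∑ k ∈ Finset.range (nK m), ∏ l, sf m j k l (rep (x l))

theorem prof_inv (m : MCode) (j : ℕ) (x : T3) (θ : UnitAddCircle) :
    prof m j (x + Pi.single (dir j) θ) = prof m j x := by
  unfold prof
  refine Finset.sum_congr rfl fun k _ => Finset.prod_congr rfl fun l _ => ?_
  unfold sf
  split_ifs with h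
  · rfl
  · simp [Pi.single_eq_of_ne h]

theorem prof_eval {m : MCode} {j k : ℕ} (hk : k < nK m) {y ξ : Fin 3 → ℝ}
    (h1 : ∀ l, l ≠ dir j → (desc m k j l).1.Valid ∧ y l = (desc m k j l).1.pt (ξ l) ∧
      ξ l ∈ Inner (base m))
    (h2 : ∀ k' < nK m, k' ≠ k → ∃ l, l ≠ dir j ∧ (desc m k j l).1.Sep (desc m k' j l).1) :
    prof m j (proj y)
      = ∏ l, if l = dir j then 1 else (desc m k j l).2.1 * ξ l + (desc m k j l).2.2 := by
  have hrep : ∀ l, l ≠ dir j → rep (proj y l) = (desc m k j l).1.pt (ξ l) := by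
    intro l hl
    obtain ⟨a, b, c⟩ := h1 l hl
    have := a.pt_mem (Inner.mem_Ioo (one_le_base m) c)
    rw [proj, rep_coe, b, Int.fract_eq_self.2 ⟨this.1.le, this.2⟩]
  unfold prof
  rw [Finset.sum_eq_single k]
  · refine Finset.prod_congr rfl fun l _ => ?_
    unfold sf
    split_ifs with h
    · rfl
    · rw [hrep l h, facFun_pt (one_le_base m) (h1 l h).1 (h1 l h).2.2]
  · intro k' hk' hne
    obtain ⟨l, hl, hs⟩ := h2 k' (Finset.mem_range.1 hk') hne
    refine Finset.prod_eq_zero (Finset.mem_univ l) ?_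
    unfold sf
    rw [if_neg hl, hrep l hl, facFun_sep (one_le_base m) hs (h1 l hl).2.2]
  · intro h
    exact absurd (Finset.mem_range.2 hk) h

theorem eta_pos (m : MCode) : 0 < eta m := by
  unfold eta
  positivity

theorem eta_le {m : MCode} {k : ℕ} (hk : k < nK m) : (k : ℚ) * eta m + eta m ≤ 1 / 2 := by
  have h1 : (k : ℚ) + 1 ≤ nK m := by exact_mod_cast hk
  have h2 : (0 : ℚ) < 2 * (nK m : ℚ) + 2 := by positivity
  have h3 : (k : ℚ) * eta m + eta m = (k + 1) / (2 * (nK m : ℚ) + 2) := by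
    unfold eta
    field_simp
  rw [h3, div_le_iff₀ h2]
  linarith

theorem ivZ_valid {m : MCode} {k : ℕ} (hk : k < nK m) : (ivZ m k).Valid :=
  ⟨mul_nonneg (Nat.cast_nonneg _) (eta_pos m).le, eta_pos m, (eta_le hk).trans (by norm_num)⟩

theorem ivZ_sep (m : MCode) {k k' : ℕ} (h : k' ≠ k) : (ivZ m k).Sep (ivZ m k') := by
  intro ξ hξ η hη he
  have h0 : (0 : ℝ) < eta m := by exact_mod_cast eta_pos m
  simp only [ivZ, Iv.pt] at he
  push_cast at he
  have h1 : (k : ℝ) + ξ = k' + η := by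
    apply mul_right_cancel₀ h0.ne'
    linarith
  rcases lt_or_gt_of_ne h with h | h
  · have : (k' : ℝ) + 1 ≤ k := by exact_mod_cast h
    linarith [hξ.1, hη.2]
  · have : (k : ℝ) + 1 ≤ k' := by exact_mod_cast h
    linarith [hξ.2, hη.1]

theorem ivZ_pt_mem {m : MCode} {k : ℕ} (hk : k < nK m) {σ : ℝ} (hσ : σ ∈ Icc (0 : ℝ) 1) :
    (ivZ m k).pt σ ∈ Icc (0 : ℝ) (1 / 2) := by
  have h0 : (0 : ℝ) < eta m := by exact_mod_cast eta_pos m
  have h1 : (k : ℝ) * eta m + eta m ≤ 1 / 2 := by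
    have := eta_le hk
    have h2 : (((k : ℚ) * eta m + eta m : ℚ) : ℝ) ≤ ((1 / 2 : ℚ) : ℝ) := by exact_mod_cast this
    push_cast at h2
    exact h2
  simp only [ivZ, Iv.pt]
  push_cast
  have h3 : 0 ≤ (k : ℝ) * eta m := by positivity
  exact ⟨by nlinarith [hσ.1], by nlinarith [hσ.2]⟩

theorem div_lt_nC {m : MCode} {k : ℕ} (hk : k < nK m) : k / nN m < nC m :=
  (Nat.div_lt_iff_lt_mul (nN_pos m)).2 hk

theorem pair_ne {m : MCode} {k k' : ℕ} (h : k' ≠ k) :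
    (k / nN m, k % nN m) ≠ (k' / nN m, k' % nN m) := by
  intro he
  rw [Prod.mk.injEq] at he
  apply h
  rw [← Nat.div_add_mod k (nN m), ← Nat.div_add_mod k' (nN m), he.1, he.2]

section
variable {m : MCode} (hm : GoodM m) {k : ℕ} (hk : k < nK m)
include hk

theorem ivU1_valid : (ivU1 m k).Valid :=
  wordIv_valid (dig_srcL (div_lt_nC hk) (Nat.mod_lt _ (nN_pos m)))

omit hk in
theorem ivU2_valid : (ivU2 m k).Valid := wordIv_valid (dig_srcR _ (Nat.mod_lt _ (nN_pos m)))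

theorem src_sep {k' : ℕ} (hk' : k' < nK m) (h : k' ≠ k) :
    (ivU1 m k).Sep (ivU1 m k') ∨ (ivU2 m k).Sep (ivU2 m k') :=
  (src_apart (pair_ne h)).imp
    (fun h => wordIv_sep h (dig_srcL (div_lt_nC hk) (Nat.mod_lt _ (nN_pos m)))
      (dig_srcL (div_lt_nC hk') (Nat.mod_lt _ (nN_pos m))))
    (fun h => wordIv_sep h (dig_srcR _ (Nat.mod_lt _ (nN_pos m)))
      (dig_srcR _ (Nat.mod_lt _ (nN_pos m))))

include hm

theorem ivV1_valid : (ivV1 m k).Valid :=
  wordIv_valid (dig_imgL hm (div_lt_nC hk) (Nat.mod_lt _ (nN_pos m)))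

theorem ivV2_valid : (ivV2 m k).Valid :=
  wordIv_valid (dig_pushR hm (div_lt_nC hk) (Nat.mod_lt _ (nN_pos m)))

theorem img_sep {k' : ℕ} (hk' : k' < nK m) (h : k' ≠ k) :
    (ivV1 m k).Sep (ivV1 m k') ∨ (ivV2 m k).Sep (ivV2 m k') :=
  (img_apart (pair_ne h)).imp
    (fun h => wordIv_sep h (dig_imgL hm (div_lt_nC hk) (Nat.mod_lt _ (nN_pos m)))
      (dig_imgL hm (div_lt_nC hk') (Nat.mod_lt _ (nN_pos m))))
    (fun h => wordIv_sep h (dig_pushR hm (div_lt_nC hk) (Nat.mod_lt _ (nN_pos m)))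
      (dig_pushR hm (div_lt_nC hk') (Nat.mod_lt _ (nN_pos m))))

end

/-- The time-one map of the shear in slot `j`. -/
noncomputable def stageMap (m : MCode) (j : ℕ) (p : Fin 3 → ℝ) : Fin 3 → ℝ :=
  p + Pi.single (dir j) (prof m j (proj p))

theorem stage_z {m : MCode} {j k : ℕ} (hk : k < nK m) (hd : dir j = 2) {ξ ζ : ℝ} (z : ℝ)
    (hξ : ξ ∈ Inner (base m)) (hζ : ζ ∈ Inner (base m)) {I J : Iv} {a b c d : ℚ}
    (e0 : desc m k j 0 = (I, a, b)) (e1 : desc m k j 1 = (J, c, d))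
    (hI : I.Valid) (hJ : J.Valid)
    (hs : ∀ k' < nK m, k' ≠ k → I.Sep (desc m k' j 0).1 ∨ J.Sep (desc m k' j 1).1) :
    stageMap m j ![I.pt ξ, J.pt ζ, z] = ![I.pt ξ, J.pt ζ, z + (a * ξ + b) * (c * ζ + d)] := by
  unfold stageMap
  rw [prof_eval hk (ξ := ![ξ, ζ, 0]), hd]
  · funext l
    fin_cases l <;> simp [Fin.prod_univ_three, e0, e1]
  · intro l hl
    rw [hd] at hl
    fin_cases l
    · simpa [e0] using ⟨hI, hξ⟩
    · simpa [e1] using ⟨hJ, hζ⟩
    · exact absurd rfl hl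
  · intro k' hk' hne
    rw [hd]
    rcases hs k' hk' hne with h | h
    · exact ⟨0, by decide, by rwa [e0]⟩
    · exact ⟨1, by decide, by rwa [e1]⟩

theorem stage_x {m : MCode} {j k : ℕ} (hk : k < nK m) (hd : dir j = 0) {ξ ζ : ℝ} (x : ℝ)
    (hξ : ξ ∈ Inner (base m)) (hζ : ζ ∈ Inner (base m)) {I J : Iv} {a b c d : ℚ}
    (e0 : desc m k j 1 = (I, a, b)) (e1 : desc m k j 2 = (J, c, d))
    (hI : I.Valid) (hJ : J.Valid)
    (hs : ∀ k' < nK m, k' ≠ k → J.Sep (desc m k' j 2).1) :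
    stageMap m j ![x, I.pt ξ, J.pt ζ] = ![x + (a * ξ + b) * (c * ζ + d), I.pt ξ, J.pt ζ] := by
  unfold stageMap
  rw [prof_eval hk (ξ := ![0, ξ, ζ]), hd]
  · funext l
    fin_cases l <;> simp [Fin.prod_univ_three, e0, e1]
  · intro l hl
    rw [hd] at hl
    fin_cases l
    · exact absurd rfl hl
    · simpa [e0] using ⟨hI, hξ⟩
    · simpa [e1] using ⟨hJ, hζ⟩
  · intro k' hk' hne
    rw [hd]
    exact ⟨2, by decide, by rw [e1]; exact hs k' hk' hne⟩

theorem stage_y {m : MCode} {j k : ℕ} (hk : k < nK m) (hd : dir j = 1) {ξ ζ : ℝ} (y : ℝ)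
    (hξ : ξ ∈ Inner (base m)) (hζ : ζ ∈ Inner (base m)) {I J : Iv} {a b c d : ℚ}
    (e0 : desc m k j 0 = (I, a, b)) (e1 : desc m k j 2 = (J, c, d))
    (hI : I.Valid) (hJ : J.Valid)
    (hs : ∀ k' < nK m, k' ≠ k → J.Sep (desc m k' j 2).1) :
    stageMap m j ![I.pt ξ, y, J.pt ζ] = ![I.pt ξ, y + (a * ξ + b) * (c * ζ + d), J.pt ζ] := by
  unfold stageMap
  rw [prof_eval hk (ξ := ![ξ, 0, ζ]), hd]
  · funext l
    fin_cases l <;> simp [Fin.prod_univ_three, e0, e1]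
  · intro l hl
    rw [hd] at hl
    fin_cases l
    · simpa [e0] using ⟨hI, hξ⟩
    · exact absurd rfl hl
    · simpa [e1] using ⟨hJ, hζ⟩
  · intro k' hk' hne
    rw [hd]
    exact ⟨2, by decide, by rw [e1]; exact hs k' hk' hne⟩

theorem vec3_ext {a b c a' b' c' : ℝ} (h1 : a = a') (h2 : b = b') (h3 : c = c') :
    ![a, b, c] = ![a', b', c'] := by rw [h1, h2, h3]

/-- The intermediate positions during one simulated step. -/
noncomputable def waypoint (m : MCode) (k : ℕ) (ξ ζ : ℝ) : ℕ → Fin 3 → ℝ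
  | 2 => ![(ivU1 m k).pt ξ, (ivU2 m k).pt ζ, 0]
  | 3 => ![(ivU1 m k).pt ξ, (ivU2 m k).pt ζ, (ivZ m k).pt ξ]
  | 4 => ![(ivZ m k).pt ξ, (ivU2 m k).pt ζ, (ivZ m k).pt ξ]
  | 5 => ![(ivZ m k).pt ξ, (ivU2 m k).pt ζ, (ivZ m k).pt 0]
  | 6 => ![(ivZ m k).pt ξ, (ivU2 m k).pt ζ, (ivZ m k).pt ζ]
  | 7 => ![(ivZ m k).pt ξ, (ivV2 m k).pt ζ, (ivZ m k).pt ζ]
  | 8 => ![(ivZ m k).pt ξ, (ivV2 m k).pt ζ, (ivZ m k).pt 0]
  | 9 => ![(ivZ m k).pt ξ, (ivV2 m k).pt ζ, (ivZ m k).pt ξ]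
  | 10 => ![(ivV1 m k).pt ξ, (ivV2 m k).pt ζ, (ivZ m k).pt ξ]
  | _ => ![(ivV1 m k).pt ξ, (ivV2 m k).pt ζ, 0]

theorem stage_first {m : MCode} {k : ℕ} (hk : k < nK m) {ξ ζ : ℝ}
    (hξ : ξ ∈ Inner (base m)) (hζ : ζ ∈ Inner (base m)) :
    stageMap m 2 (waypoint m k ξ ζ 2)
      = ![(ivU1 m k).pt ξ, (ivU2 m k).pt ζ, (ivZ m k).pt ξ + hflag m k] := by
  have := stage_z (j := 2) hk rfl 0 hξ hζ (I := ivU1 m k) (J := ivU2 m k) (a := eta m)
    (b := k * eta m + hflag m k) (c := 0) (d := 1) rfl rfl (ivU1_valid hk) ivU2_valid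
    fun k' hk' hne => src_sep hk hk' hne
  rw [waypoint, this]
  refine vec3_ext rfl rfl ?_
  simp only [ivZ, Iv.pt]
  push_cast
  ring

theorem stage_waypoint {m : MCode} (hm : GoodM m) {k : ℕ} (hk : k < nK m) {ξ ζ : ℝ}
    (hξ : ξ ∈ Inner (base m)) (hζ : ζ ∈ Inner (base m)) (hh : hflag m k = 0) {j : ℕ}
    (h2 : 2 ≤ j) (h11 : j < 11) :
    stageMap m j (waypoint m k ξ ζ j) = waypoint m k ξ ζ (j + 1) := by
  have hZ := ivZ_valid hk
  have hU2 : (ivU2 m k).Valid := ivU2_valid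
  have hV1 := ivV1_valid hm hk
  have hV2 := ivV2_valid hm hk
  interval_cases j
  · rw [stage_first hk hξ hζ, hh]
    exact vec3_ext rfl rfl (by simp)
  · have := stage_x (j := 3) hk rfl ((ivU1 m k).pt ξ) hζ hξ (I := ivU2 m k) (J := ivZ m k)
      (a := 0) (b := 1) (c := eta m - (ivU1 m k).2)
      (d := k * eta m - (ivU1 m k).1) rfl rfl hU2 hZ fun k' _ hne => ivZ_sep m hne
    refine this.trans (vec3_ext ?_ rfl rfl)
    simp only [ivZ, Iv.pt]
    push_cast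
    ring
  · have := stage_z (j := 4) hk rfl ((ivZ m k).pt ξ) hξ hζ (I := ivZ m k) (J := ivU2 m k)
      (a := -eta m) (b := 0) (c := 0)
      (d := 1) rfl rfl hZ hU2 fun k' _ hne => Or.inl (ivZ_sep m hne)
    refine this.trans (vec3_ext rfl rfl ?_)
    simp only [ivZ, Iv.pt]
    push_cast
    ring
  · have := stage_z (j := 5) hk rfl ((ivZ m k).pt 0) hξ hζ (I := ivZ m k) (J := ivU2 m k)
      (a := 0) (b := 1) (c := eta m)
      (d := 0) rfl rfl hZ hU2 fun k' _ hne => Or.inl (ivZ_sep m hne)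
    refine this.trans (vec3_ext rfl rfl ?_)
    simp only [ivZ, Iv.pt]
    push_cast
    ring
  · have := stage_y (j := 6) hk rfl ((ivU2 m k).pt ζ) hξ hζ (I := ivZ m k) (J := ivZ m k)
      (a := 0) (b := 1) (c := (ivV2 m k).2 - (ivU2 m k).2)
      (d := (ivV2 m k).1 - (ivU2 m k).1) rfl rfl hZ hZ fun k' _ hne => ivZ_sep m hne
    refine this.trans (vec3_ext rfl ?_ rfl)
    simp only [ivZ, Iv.pt]
    push_cast
    ring
  · have := stage_z (j := 7) hk rfl ((ivZ m k).pt ζ) hξ hζ (I := ivZ m k) (J := ivV2 m k)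
      (a := 0) (b := 1) (c := -eta m)
      (d := 0) rfl rfl hZ hV2 fun k' _ hne => Or.inl (ivZ_sep m hne)
    refine this.trans (vec3_ext rfl rfl ?_)
    simp only [ivZ, Iv.pt]
    push_cast
    ring
  · have := stage_z (j := 8) hk rfl ((ivZ m k).pt 0) hξ hζ (I := ivZ m k) (J := ivV2 m k)
      (a := eta m) (b := 0) (c := 0)
      (d := 1) rfl rfl hZ hV2 fun k' _ hne => Or.inl (ivZ_sep m hne)
    refine this.trans (vec3_ext rfl rfl ?_)
    simp only [ivZ, Iv.pt]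
    push_cast
    ring
  · have := stage_x (j := 9) hk rfl ((ivZ m k).pt ξ) hζ hξ (I := ivV2 m k) (J := ivZ m k)
      (a := 0) (b := 1) (c := (ivV1 m k).2 - eta m)
      (d := (ivV1 m k).1 - k * eta m) rfl rfl hV2 hZ fun k' _ hne => ivZ_sep m hne
    refine this.trans (vec3_ext ?_ rfl rfl)
    simp only [ivZ, Iv.pt]
    push_cast
    ring
  · have := stage_z (j := 10) hk rfl ((ivZ m k).pt ξ) hξ hζ (I := ivV1 m k) (J := ivV2 m k)
      (a := -eta m) (b := -(k * eta m)) (c := 0)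
      (d := 1) rfl rfl hV1 hV2 fun k' hk' hne => img_sep hm hk hk' hne
    refine this.trans (vec3_ext rfl rfl ?_)
    simp only [ivZ, Iv.pt]
    push_cast
    ring

theorem waypoint_z {m : MCode} {k : ℕ} (hk : k < nK m) {ξ ζ : ℝ}
    (hξ : ξ ∈ Inner (base m)) (hζ : ζ ∈ Inner (base m)) {j : ℕ} (h2 : 2 ≤ j) (h11 : j ≤ 11) :
    waypoint m k ξ ζ j 2 ∈ Icc (0 : ℝ) (1 / 2) := by
  have a := ivZ_pt_mem hk (Ioo_subset_Icc_self (Inner.mem_Ioo (one_le_base m) hξ))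
  have b := ivZ_pt_mem hk (Ioo_subset_Icc_self (Inner.mem_Ioo (one_le_base m) hζ))
  have c := ivZ_pt_mem hk (σ := 0) (by simp)
  have d : (0 : ℝ) ∈ Icc (0 : ℝ) (1 / 2) := by simp
  interval_cases j
  exacts [d, a, a, c, b, b, c, a, a, d]

/-- The point that encodes an abstract configuration. -/
noncomputable def emb (m : MCode) (a : ACfg) : Fin 3 → ℝ :=
  ![valQ m (a.1 :: a.2.1), valQ m a.2.2, 0]

/-- Index of the piece that contains a configuration. -/
def piece (m : MCode) (a : ACfg) : ℕ := a.1 * nN m + top a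

theorem piece_div {m : MCode} {a : ACfg} (h : WF m a) : piece m a / nN m = a.1 := by
  unfold piece
  rw [mul_comm, Nat.mul_add_div (nN_pos m), Nat.div_eq_of_lt h.top_lt, add_zero]

theorem piece_mod {m : MCode} {a : ACfg} (h : WF m a) : piece m a % nN m = top a := by
  unfold piece
  rw [mul_comm, Nat.mul_add_mod, Nat.mod_eq_of_lt h.top_lt]

theorem piece_lt {m : MCode} {a : ACfg} (h : WF m a) : piece m a < nK m := by
  have h1 : (a.1 + 1) * nN m ≤ nC m * nN m := Nat.mul_le_mul_right _ h.1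
  have h2 := h.top_lt
  unfold piece nK
  nlinarith

theorem emb_eq_waypoint {m : MCode} {a : ACfg} (h : WF m a) :
    emb m a = waypoint m (piece m a) (valQ m (restL a)) (valQ m (restR a)) 2 := by
  refine vec3_ext ?_ ?_ rfl
  · simp only [ivU1, piece_div h, piece_mod h, srcL, restL, top]
    split_ifs with h0
    · rw [wordIv_cons, ← valQ_head]
      exact (valQ_append m [a.1] a.2.1).trans (by rw [wordIv_cons, wordIv_nil])
    · exact valQ_append m [a.1] a.2.1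
  · simp only [ivU2, piece_div h, piece_mod h, srcR, restR, top]
    split_ifs with h0
    · rw [wordIv_nil]
    · exact valQ_head m a.2.2

theorem emb_astep {m : MCode} {a : ACfg} (h : WF m a) :
    emb m (astep m a) = waypoint m (piece m a) (valQ m (restL a)) (valQ m (restR a)) 11 := by
  refine vec3_ext ?_ ?_ rfl
  · simp only [ivV1, piece_div h, piece_mod h]
    exact valQ_append m (imgL m a.1 (top a)) (restL a)
  · simp only [ivV2, piece_div h, piece_mod h]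
    exact valQ_append m (pushR m a.1 (top a)) (restR a)

end Vale.Agent.P113
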