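import Mathlib
import Vale.Agent.P113.Stages
import Vale.Agent.P113.Eff1

/-! Computability of the stage descriptors. -/

namespace Vale.Agent.P113

attribute [fun_prop] c_ite c_lt c_le c_eq

variable {α : Type} [Primcodable α]

@[fun_prop] theorem c_nA {m : α → MCode} (hm : Computable m) : Computable fun a => nA (m a) := by
  unfold nA; fun_prop
@[fun_prop] theorem c_nC {m : α → MCode} (hm : Computable m) : Computable fun a => nC (m a) := by
  unfold nC; fun_prop
@[fun_prop] theorem c_nN {m : α → MCode} (hm : Computable m) : Computable fun a => nN (m a) := by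
  unfold nN; fun_prop
@[fun_prop] theorem c_nK {m : α → MCode} (hm : Computable m) : Computable fun a => nK (m a) := by
  unfold nK; fun_prop
@[fun_prop] theorem c_haltB {m : α → MCode} {q : α → ℕ} (hm : Computable m) (hq : Computable q) :
    Computable fun a => haltB (m a) (q a) := by
  unfold haltB; fun_prop
@[fun_prop] theorem c_tr {m : α → MCode} {q s : α → ℕ} (hm : Computable m) (hq : Computable q)
    (hs : Computable s) : Computable fun a => tr (m a) (q a) (s a) := by
  unfold tr; fun_prop
@[fun_prop] theorem c_side {q : α → ℕ} (hq : Computable q) : Computable fun a => side (q a) := by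
  unfold side; fun_prop
@[fun_prop] theorem c_recSym {m : α → MCode} {q s : α → ℕ} (hm : Computable m)
    (hq : Computable q) (hs : Computable s) : Computable fun a => recSym (m a) (q a) (s a) := by
  unfold recSym; fun_prop
@[fun_prop] theorem c_nextC {m : α → MCode} {q s : α → ℕ} (hm : Computable m)
    (hq : Computable q) (hs : Computable s) : Computable fun a => nextC (m a) (q a) (s a) := by
  unfold nextC; fun_prop
@[fun_prop] theorem c_junk {m : α → MCode} {q s : α → ℕ} (hm : Computable m)
    (hq : Computable q) (hs : Computable s) : Computable fun a => junk (m a) (q a) (s a) := by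
  unfold junk; fun_prop
@[fun_prop] theorem c_realL {m : α → MCode} {q s : α → ℕ} (hm : Computable m)
    (hq : Computable q) (hs : Computable s) : Computable fun a => realL (m a) (q a) (s a) := by
  unfold realL; fun_prop
@[fun_prop] theorem c_realR {m : α → MCode} {q s : α → ℕ} (hm : Computable m)
    (hq : Computable q) (hs : Computable s) : Computable fun a => realR (m a) (q a) (s a) := by
  unfold realR; fun_prop
@[fun_prop] theorem c_pushL {m : α → MCode} {q s : α → ℕ} (hm : Computable m)
    (hq : Computable q) (hs : Computable s) : Computable fun a => pushL (m a) (q a) (s a) := by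
  unfold pushL; fun_prop
@[fun_prop] theorem c_pushR {m : α → MCode} {q s : α → ℕ} (hm : Computable m)
    (hq : Computable q) (hs : Computable s) : Computable fun a => pushR (m a) (q a) (s a) := by
  unfold pushR; fun_prop
@[fun_prop] theorem c_srcL {q s : α → ℕ}
    (hq : Computable q) (hs : Computable s) : Computable fun a => srcL (q a) (s a) := by
  unfold srcL; fun_prop
@[fun_prop] theorem c_srcR {q s : α → ℕ}
    (hq : Computable q) (hs : Computable s) : Computable fun a => srcR (q a) (s a) := by
  unfold srcR; fun_prop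
@[fun_prop] theorem c_imgL {m : α → MCode} {q s : α → ℕ} (hm : Computable m)
    (hq : Computable q) (hs : Computable s) : Computable fun a => imgL (m a) (q a) (s a) := by
  unfold imgL; fun_prop

theorem ratComp_base {m : α → MCode} (hm : Computable m) : RatComp fun a => base (m a) :=
  (RatComp.nat (by fun_prop)).add (RatComp.const 2)

/-- Computable families of intervals. -/
def IvComp (I : α → Iv) : Prop := RatComp (fun a => (I a).1) ∧ RatComp fun a => (I a).2

theorem foldr_eq_sum (B : ℚ) (u : List ℕ) :
    u.foldr (fun (a : ℕ) (v : ℚ) => (v + a + 1) / B) 0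
      = ∑ i ∈ Finset.range u.length, ((u.getD i 0 : ℕ) + 1) / B ^ (i + 1) := by
  induction u with
  | nil => simp
  | cons a u ih =>
    rw [List.foldr_cons, ih, List.length_cons, Finset.sum_range_succ', add_assoc, add_div,
      Finset.sum_div]
    congr 1
    · refine Finset.sum_congr rfl fun i _ => ?_
      rw [div_div, ← pow_succ]
      simp
    · simp

theorem ivComp_word {B : α → ℚ} {u : α → List ℕ} (hB : RatComp B) (hu : Computable u) :
    IvComp fun a => wordIv (B a) (u a) := by
  refine ⟨?_, ((RatComp.const 1).div hB).pow (by fun_prop)⟩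
  refine (RatComp.sum_range (f := fun p : α × ℕ =>
    ((((u p.1).getD p.2 0 : ℕ) : ℚ) + 1) / B p.1 ^ (p.2 + 1)) (n := fun a => (u a).length)
    (((RatComp.nat (by fun_prop)).add (RatComp.const 1)).div
      ((hB.comp (by fun_prop)).pow (by fun_prop))) (by fun_prop)).of_eq fun a => ?_
  simp only [wordIv, foldr_eq_sum]

theorem ratComp_valQ {m : α → MCode} {u : α → List ℕ} (hm : Computable m) (hu : Computable u) :
    RatComp fun a => valQ (m a) (u a) :=
  (ivComp_word (ratComp_base hm) hu).1.add ((ivComp_word (ratComp_base hm) hu).2.mul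
    ((ratComp_base hm).sub (RatComp.const 1)).inv)

/-- Computable families of descriptors. -/
def DescComp (D : α → Desc) : Prop :=
  IvComp (fun a => (D a).1) ∧ RatComp (fun a => (D a).2.1) ∧ RatComp fun a => (D a).2.2

theorem descComp_desc {m : α → MCode} {k : α → ℕ} (hm : Computable m) (hk : Computable k)
    {j : ℕ} (h2 : 2 ≤ j) (h11 : j < 11) (l : Fin 3) : DescComp fun a => desc (m a) (k a) j l := by
  have hB := ratComp_base hm
  have U1 : IvComp fun a => ivU1 (m a) (k a) := ivComp_word hB (by fun_prop)
  have U2 : IvComp fun a => ivU2 (m a) (k a) := ivComp_word hB (by fun_prop)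
  have V1 : IvComp fun a => ivV1 (m a) (k a) := ivComp_word hB (by fun_prop)
  have V2 : IvComp fun a => ivV2 (m a) (k a) := ivComp_word hB (by fun_prop)
  have E : RatComp fun a => eta (m a) :=
    (((RatComp.const 2).mul (RatComp.nat (by fun_prop))).add (RatComp.const 2)).inv
  have KE : RatComp fun a => (k a : ℚ) * eta (m a) := (RatComp.nat hk).mul E
  have Z : IvComp fun a => ivZ (m a) (k a) := ⟨KE, E⟩
  have H : RatComp fun a => hflag (m a) (k a) :=
    RatComp.cond (by fun_prop) (RatComp.const _) (RatComp.const _)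
  have c0 : RatComp fun _ : α => (0 : ℚ) := RatComp.const 0
  have c1 : RatComp fun _ : α => (1 : ℚ) := RatComp.const 1
  have D0 : DescComp fun _ : α => d0 := ⟨⟨c0, c1⟩, c0, c0⟩
  interval_cases j <;> fin_cases l
  · exact ⟨U1, E, KE.add H⟩
  · exact ⟨U2, c0, c1⟩
  · exact D0
  · exact D0
  · exact ⟨U2, c0, c1⟩
  · exact ⟨Z, E.sub U1.2, KE.sub U1.1⟩
  · exact ⟨Z, E.neg, c0⟩
  · exact ⟨U2, c0, c1⟩
  · exact D0
  · exact ⟨Z, c0, c1⟩
  · exact ⟨U2, E, c0⟩
  · exact D0
  · exact ⟨Z, c0, c1⟩
  · exact D0
  · exact ⟨Z, V2.2.sub U2.2, V2.1.sub U2.1⟩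
  · exact ⟨Z, c0, c1⟩
  · exact ⟨V2, E.neg, c0⟩
  · exact D0
  · exact ⟨Z, E, c0⟩
  · exact ⟨V2, c0, c1⟩
  · exact D0
  · exact D0
  · exact ⟨V2, c0, c1⟩
  · exact ⟨Z, V1.2.sub E, V1.1.sub KE⟩
  · exact ⟨V1, E.neg, KE.neg⟩
  · exact ⟨V2, c0, c1⟩
  · exact D0

theorem IvComp.valid {I : α → Iv} (hI : IvComp I) : Computable fun a => decide (I a).Valid := by
  have h1 := (RatComp.const 0).le hI.1
  have h2 := hI.2.le (RatComp.const 0)
  have h3 := (hI.1.add hI.2).le (RatComp.const 1)
  refine (c_and h1 (c_and (c_not h2) h3)).of_eq fun a => ?_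
  simp only [Iv.Valid, Bool.decide_and, ← not_le, decide_not]

theorem eff1_facFun {B : α → ℚ} {D : α → Desc} (hB : RatComp B) (hD : DescComp D) :
    Eff1 fun a => facFun (B a) (D a) := by
  have hp : Eff1 fun a => plateau (B a) :=
    (Eff1.step.affine hB (RatComp.const 0)).sub
      (Eff1.step.affine hB ((RatComp.const 1).sub hB))
  have h1 := hD.1.2.inv
  have h2 := hD.1.1.neg.div hD.1.2
  exact (Eff1.const (RealComp.ite hD.1.valid RealComp.one RealComp.zero)).mul
    ((((Eff1.const (RealComp.ofRat hD.2.1)).mul (Eff1.id.affine h1 h2)).add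
      (Eff1.const (RealComp.ofRat hD.2.2))).mul (hp.affine h1 h2))

theorem eff1_sf {m : α → MCode} {k : α → ℕ} (hm : Computable m) (hk : Computable k)
    {j : ℕ} (h2 : 2 ≤ j) (h11 : j < 11) (l : Fin 3) :
    Eff1 fun a s => sf (m a) j (k a) l (Int.fract s) := by
  unfold sf
  split_ifs with h
  · exact Eff1.const RealComp.one
  · exact (eff1_facFun (ratComp_base hm) (descComp_desc hm hk h2 h11 l)).per
      (fun a x hx => facFun_left (one_le_base _) _ hx)
      (fun a x hx => facFun_right (one_le_base _) _ hx)

end Vale.Agent.P113
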