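import Mathlib
import Vale.Agent.P113.CompRules

/-! The velocity field: smoothness, shear structure, periodicity and effectivity. -/

open Set
open scoped ContDiff

namespace Vale.Agent.P113

/-- Time factor of slot `j`. -/
noncomputable def tf (j : ℕ) (t : ℝ) : ℝ :=
  if j < 2 then deriv S (t - j) else deriv S (11 * Int.fract (t / 11) - j)

/-- Number of terms in slot `j`. -/
def nTerms (m : MCode) (j : ℕ) : ℕ := if j < 2 then 1 else nK m

/-- Coefficient of slot `j`. -/
noncomputable def cf (x₀ y₀ : ℝ) (j : ℕ) : ℝ := if j = 0 then x₀ else if j = 1 then y₀ else 1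

/-- Spatial factors of slot `j`. -/
noncomputable def sf' (m : MCode) (j k : ℕ) (l : Fin 3) (s : ℝ) : ℝ :=
  if j < 2 then 1 else sf m j k l s

/-- Profile of slot `j`. -/
noncomputable def prof' (m : MCode) (x₀ y₀ : ℝ) (j : ℕ) (x : T3) : ℝ :=
  cf x₀ y₀ j * ∑ k ∈ Finset.range (nTerms m j), ∏ l, sf' m j k l (rep (x l))

/-- The velocity field. -/
noncomputable def uField (m : MCode) (x₀ y₀ : ℝ) (t : ℝ) (x : T3) (i : Fin 3) : ℝ :=
  ∑ j ∈ Finset.range 11, if dir j = i then tf j t * prof' m x₀ y₀ j x else 0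

theorem prof'_lt (m : MCode) (x₀ y₀ : ℝ) {j : ℕ} (hj : j < 2) (x : T3) :
    prof' m x₀ y₀ j x = cf x₀ y₀ j := by
  simp [prof', nTerms, sf', hj]

theorem prof'_ge (m : MCode) (x₀ y₀ : ℝ) {j : ℕ} (hj : 2 ≤ j) (x : T3) :
    prof' m x₀ y₀ j x = prof m j x := by
  have h0 : j ≠ 0 := by omega
  have h1 : j ≠ 1 := by omega
  simp [prof', prof, nTerms, sf', cf, not_lt.2 hj, h0, h1]

/-- The profile that acts during `[n, n+1]`. -/
noncomputable def seqProf (m : MCode) (x₀ y₀ : ℝ) (n : ℕ) (x : T3) : ℝ :=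
  if 2 ≤ n % 11 ∨ n < 11 then prof' m x₀ y₀ (n % 11) x else 0

theorem tf_eq {j n : ℕ} {t : ℝ} (h1 : (n : ℝ) ≤ t) (h2 : t < n + 1) :
    tf j t = if j = n % 11 ∧ (2 ≤ n % 11 ∨ n < 11) then deriv S (t - n) else 0 := by
  have key : ∀ a : ℕ, ∀ s : ℝ, (a : ℝ) ≤ s → s < a + 1 → j ≠ a → deriv S (s - j) = 0 := by
    intro a s ha hs hja
    rcases lt_or_gt_of_ne hja with h | h
    · have : (j : ℝ) + 1 ≤ a := by exact_mod_cast h
      exact deriv_S_right (by linarith)
    · have : (a : ℝ) + 1 ≤ j := by exact_mod_cast h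
      exact deriv_S_left (by linarith)
  unfold tf
  by_cases hj : j < 2
  · rw [if_pos hj]
    split_ifs with h
    · have : j = n := by omega
      rw [this]
    · exact key n t h1 h2 (by omega)
  · rw [if_neg hj]
    have hn : (n : ℝ) = 11 * ((n / 11 : ℕ) : ℝ) + ((n % 11 : ℕ) : ℝ) := by
      exact_mod_cast (Nat.div_add_mod n 11).symm
    have hr : ((n % 11 : ℕ) : ℝ) + 1 ≤ 11 := by exact_mod_cast Nat.mod_lt n (by norm_num)
    have hr0 : (0 : ℝ) ≤ ((n % 11 : ℕ) : ℝ) := Nat.cast_nonneg _
    have hfl : ⌊t / 11⌋ = ((n / 11 : ℕ) : ℤ) := by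
      rw [Int.floor_eq_iff, Int.cast_natCast]
      constructor
      · rw [le_div_iff₀ (by norm_num)]
        linarith
      · rw [div_lt_iff₀ (by norm_num)]
        linarith
    have hfr : 11 * Int.fract (t / 11) = t - n + ((n % 11 : ℕ) : ℝ) := by
      rw [Int.fract, hfl, Int.cast_natCast]
      linarith
    rw [hfr]
    split_ifs with h
    · rw [← h.1]
      congr 1
      ring
    · exact key (n % 11) _ (by linarith) (by linarith) (by omega)

theorem isShearSeq_uField (m : MCode) (x₀ y₀ : ℝ) :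
    IsShearSeq (uField m x₀ y₀) (fun n => dir (n % 11)) (seqProf m x₀ y₀) where
  eq := fun n t h1 h2 x => by
    funext i
    unfold uField seqProf
    simp only [tf_eq h1 h2]
    rw [Finset.sum_eq_single (n % 11)]
    · by_cases hi : dir (n % 11) = i
      · subst hi
        simp only [if_true, Pi.single_eq_same, true_and]
        split_ifs <;> simp
      · rw [if_neg hi, Pi.single_eq_of_ne (Ne.symm hi)]
    · intro j _ hj
      simp [hj]
    · intro h
      exact absurd (Finset.mem_range.2 (Nat.mod_lt n (by norm_num))) h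
  inv := fun n x s => by
    unfold seqProf
    split_ifs with h
    · rcases lt_or_ge (n % 11) 2 with h2 | h2
      · rw [prof'_lt m x₀ y₀ h2, prof'_lt m x₀ y₀ h2]
      · rw [prof'_ge m x₀ y₀ h2, prof'_ge m x₀ y₀ h2, prof_inv]
    · rfl

theorem IsShearSeq.isClassical {u : ℝ → T3 → Fin 3 → ℝ} {d : ℕ → Fin 3} {ψ : ℕ → T3 → ℝ}
    (h : IsShearSeq u d ψ) (hu : ∀ i, Smooth (cpt u i)) (ν : ℝ) {T : ℝ} (hT : 0 < T) :
    IsClassical ν (force ν u) T u fun _ _ => 0 := by
  have e : ∀ t, 0 ≤ t → ∀ x, u t x = Pi.single (d ⌊t⌋₊) (deriv S (t - ⌊t⌋₊) * ψ ⌊t⌋₊ x) :=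
    fun t ht => h.eq _ t (Nat.floor_le ht) (Nat.lt_floor_add_one t)
  have hpd : ∀ t, 0 ≤ t → ∀ x i, pd (d ⌊t⌋₊) (cpt u i t) x = 0 := by
    intro t ht x i
    have : line (cpt u i t) (d ⌊t⌋₊) x = fun _ => u t x i := by
      funext s
      simp only [line, cpt, e t ht, h.inv]
    simp [pd, this]
  refine isClassical_force ν hu (fun t ht x => Finset.sum_eq_zero fun j _ => ?_)
    (fun t ht x i => Finset.sum_eq_zero fun j _ => ?_) (fun x => ?_) hT
  · by_cases hj : j = d ⌊t⌋₊
    · have := hpd t ht x j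
      rwa [← hj] at this
    · have : cpt u j t = fun _ => 0 := by
        funext y
        simp only [cpt, e t ht, Pi.single_eq_of_ne hj]
      rw [this, pd_const]
  · by_cases hj : j = d ⌊t⌋₊
    · rw [hj, hpd t ht, mul_zero]
    · rw [e t ht, Pi.single_eq_of_ne hj, zero_mul]
  · rw [e 0 le_rfl, deriv_S_left (by simp)]
    simp

/-- The index set of the terms of the field. -/
def idx (m : MCode) : Finset (Σ _ : ℕ, ℕ) :=
  (Finset.range 11).sigma fun j => Finset.range (nTerms m j)

/-- Coefficients of the terms. -/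
noncomputable def coef (x₀ y₀ : ℝ) (i : Fin 3) (p : Σ _ : ℕ, ℕ) : ℝ :=
  if dir p.1 = i then cf x₀ y₀ p.1 else 0

/-- The four factors of a term. -/
noncomputable def fac4 (m : MCode) (p : Σ _ : ℕ, ℕ) : Fin 4 → ℝ → ℝ :=
  if p.1 < 11 then Fin.cons (tf p.1) fun l s => sf' m p.1 p.2 l (Int.fract s) else fun _ _ => 0

theorem lift_uField (m : MCode) (x₀ y₀ : ℝ) (i : Fin 3) :
    lift (cpt (uField m x₀ y₀) i) = tens (idx m) (coef x₀ y₀ i) (fac4 m) 0 := by
  funext z
  simp only [lift, cpt, uField, tens, idx, Finset.sum_sigma, coef, prof', proj, rep_coe]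
  refine Finset.sum_congr rfl fun j hj => ?_
  have hj' : j < 11 := Finset.mem_range.1 hj
  split_ifs with h
  · rw [mul_left_comm, Finset.mul_sum, Finset.mul_sum]
    refine Finset.sum_congr rfl fun k _ => ?_
    rw [Fin.prod_univ_succ (n := 3)]
    simp only [fac4, hj', if_true, Pi.zero_apply, iteratedDeriv_zero, Fin.cons_zero,
      Fin.cons_succ]
  · simp

variable {α : Type} [Primcodable α]

theorem eff1_tf {j : ℕ} (hj : j < 11) : Eff1 fun _ : α => tf j := by
  unfold tf
  split_ifs with h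
  · exact (Eff1.step.deriv.affine (RatComp.const 1) (RatComp.const (-j))).of_eq fun a x => by
      push_cast
      rw [one_mul, sub_eq_add_neg]
  · have h1 : Eff1 fun (_ : α) (x : ℝ) => deriv S (((11 : ℚ) : ℝ) * x + ((-j : ℚ) : ℝ)) :=
      Eff1.step.deriv.affine (RatComp.const 11) (RatComp.const (-j))
    have h0 : (0 : ℝ) ≤ j := Nat.cast_nonneg j
    have h11 : (j : ℝ) + 1 ≤ 11 := by exact_mod_cast hj
    have h2 := h1.per (fun _ x hx => deriv_S_left (by push_cast; linarith))
      (fun _ x hx => deriv_S_right (by push_cast; linarith))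
    exact (h2.affine (RatComp.const (1 / 11)) (RatComp.const 0)).of_eq fun a x => by
      push_cast
      rw [add_zero, one_div_mul_eq_div, sub_eq_add_neg]

theorem eff1_fac4 {m : α → MCode} {k : α → ℕ} (hm : Computable m) (hk : Computable k) (j : ℕ)
    (l : Fin 4) : Eff1 fun a => fac4 (m a) ⟨j, k a⟩ l := by
  unfold fac4
  by_cases hj : j < 11
  · simp only [hj, if_true]
    refine Fin.cases ?_ (fun l => ?_) l
    · exact eff1_tf hj
    · simp only [Fin.cons_succ, sf']
      split_ifs with h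
      · exact Eff1.const RealComp.one
      · exact eff1_sf hm hk (not_lt.1 h) hj l
  · simp only [hj, if_false]
    exact Eff1.const RealComp.zero

theorem fac4_smooth (m : MCode) (p : Σ _ : ℕ, ℕ) (l : Fin 4) : ContDiff ℝ ∞ (fac4 m p l) :=
  (eff1_fac4 (α := ℕ) (m := fun _ => m) (k := fun k => k) (Computable.const _) Computable.id
    p.1 l).smooth p.2

theorem smooth_uField (m : MCode) (x₀ y₀ : ℝ) (i : Fin 3) : Smooth (cpt (uField m x₀ y₀) i) := by
  unfold Smooth
  rw [lift_uField]
  exact contDiff_tens _ _ (fac4_smooth m) _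

theorem realComp_tens {m : α → MCode} {x₀ y₀ : α → ℝ} {i : α → Fin 3} {n : α → Fin 4 → ℕ}
    {z : α → Fin 4 → ℤ × ℕ} (hm : Computable m) (hx : RealComp x₀) (hy : RealComp y₀)
    (hi : Computable i) (hn : ∀ l, Computable fun a => n a l)
    (hz : ∀ l, Computable fun a => z a l) :
    RealComp fun a => tens (idx (m a)) (coef (x₀ a) (y₀ a) (i a)) (fac4 (m a)) (n a)
      fun l => ratVal (z a l) := by
  simp only [tens, idx, Finset.sum_sigma]
  refine RealComp.finset_sum _ fun j _ => ?_
  refine RealComp.sum_range (f := fun p : α × ℕ => coef (x₀ p.1) (y₀ p.1) (i p.1) ⟨j, p.2⟩ *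
    ∏ l, iteratedDeriv (n p.1 l) (fac4 (m p.1) ⟨j, p.2⟩ l) (ratVal (z p.1 l))) ?_ ?_
  · refine RealComp.mul ?_ (RealComp.finset_prod _ fun l _ => ?_)
    · unfold coef cf
      refine RealComp.ite ?_ ?_ RealComp.zero
      · refine (c_eq (f := fun _ => (dir j).val) (g := fun p : α × ℕ => (i p.1).val)
          (Computable.const _) (Primrec.fin_val.to_comp.comp (hi.comp Computable.fst))).of_eq
          fun p => ?_
        simp only [Fin.val_inj]
      · dsimp only
        split_ifs
        · exact hx.comp Computable.fst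
        · exact hy.comp Computable.fst
        · exact RealComp.one
    · refine ((eff1_fac4 (α := α × ℕ) (m := fun p => m p.1) (k := fun p => p.2) (by fun_prop)
        (by fun_prop) j l).eval (g := fun p => p) Computable.id ((hn l).comp Computable.fst)
        (RatComp.ofPair ((hz l).comp Computable.fst))).of_eq fun p => ?_
      simp [ratVal]
  · unfold nTerms
    split_ifs
    · fun_prop
    · fun_prop

theorem uField_late (m : MCode) (x₀ y₀ : ℝ) {t : ℝ} (ht : 2 ≤ t) :
    uField m x₀ y₀ t = uField m 0 0 t := by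
  funext x i
  unfold uField
  refine Finset.sum_congr rfl fun j _ => ?_
  rcases lt_or_ge j 2 with h | h
  · have h1 : (j : ℝ) + 1 ≤ 2 := by exact_mod_cast h
    have : tf j t = 0 := by
      rw [tf, if_pos h, deriv_S_right (by linarith)]
    simp [this]
  · rw [prof'_ge m x₀ y₀ h, prof'_ge m 0 0 h]

theorem uField_periodic (m : MCode) (t : ℝ) : uField m 0 0 (t + 11) = uField m 0 0 t := by
  funext x i
  unfold uField
  refine Finset.sum_congr rfl fun j _ => ?_
  rcases lt_or_ge j 2 with h | h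
  · have : prof' m 0 0 j x = 0 := by
      rw [prof'_lt m 0 0 h]
      interval_cases j <;> simp [cf]
    simp [this]
  · have : tf j (t + 11) = tf j t := by
      simp only [tf, not_lt.2 h, if_false]
      rw [add_div, div_self (by norm_num), Int.fract_add_one]
    rw [this]

theorem force_late (ν : ℝ) (m : MCode) (x₀ y₀ : ℝ) {t : ℝ} (ht : 3 ≤ t) :
    force ν (uField m x₀ y₀) t = force ν (uField m 0 0) t := by
  funext x i
  have h1 : cpt (uField m x₀ y₀) i t = cpt (uField m 0 0) i t := by
    unfold cpt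
    rw [uField_late m x₀ y₀ (by linarith)]
  have h2 : dtAll (cpt (uField m x₀ y₀) i) t x = dtAll (cpt (uField m 0 0) i) t x := by
    refine Filter.EventuallyEq.deriv_eq ?_
    filter_upwards [Ici_mem_nhds (show (2 : ℝ) < t by linarith)] with s hs
    unfold cpt
    rw [uField_late m x₀ y₀ hs]
  simp only [force, h1, h2]

theorem force_periodic (ν : ℝ) (m : MCode) (t : ℝ) :
    force ν (uField m 0 0) (t + 11) = force ν (uField m 0 0) t := by
  funext x i
  have h1 : ∀ t, cpt (uField m 0 0) i (t + 11) = cpt (uField m 0 0) i t := by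
    intro t
    unfold cpt
    rw [uField_periodic]
  have h2 : dtAll (cpt (uField m 0 0) i) (t + 11) x = dtAll (cpt (uField m 0 0) i) t x := by
    unfold dtAll
    rw [← deriv_comp_add_const]
    simp only [h1]
  simp only [force, h1, h2]

end Vale.Agent.P113
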