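import Mathlib
import Vale.Agent.P113.Rules

/-! The two-stack system simulates the Turing machine. -/

namespace Vale.Agent.P113

/-- The machine part of a description. -/
def Machine.mcode (M : Machine) : MCode := (M.describe []).1

theorem Machine.describe_fst (M : Machine) (w : List (Fin (M.na + 1))) :
    (M.describe w).1 = M.mcode := rfl

theorem Machine.nA_mcode (M : Machine) : nA M.mcode = M.na + 1 := rfl

theorem Machine.haltB_mcode (M : Machine) (q : Fin M.nq) : haltB M.mcode q = M.halting q := by
  simp [haltB, Machine.mcode, Machine.describe]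

theorem Machine.tr_mcode (M : Machine) (q : Fin M.nq) (a : Fin (M.na + 1)) :
    tr M.mcode q a = ((M.δ q a).1.val, (M.δ q a).2.1.val, (M.δ q a).2.2.code) := by
  simp only [tr, Machine.mcode, Machine.describe]
  have gen : ∀ {β : Type} {n : ℕ} (f : Fin n → β) (i : Fin n) (d : β),
      (List.ofFn f).getD i d = f i := by
    intro β n f i d
    rw [List.getD_eq_getElem _ _ (by simp), List.getElem_ofFn]
  rw [gen, gen]

theorem Machine.goodM (M : Machine) : GoodM M.mcode := by
  intro q hq a ha
  have := M.tr_mcode ⟨q, hq⟩ ⟨a, ha⟩
  simp only at this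
  rw [this]
  exact ⟨Fin.is_lt _, Fin.is_lt _⟩

theorem Machine.wf_init (M : Machine) (w : List (Fin (M.na + 1))) :
    WF M.mcode (ainit (M.describe w)) := by
  refine ⟨?_, Dig.nil _, ?_⟩
  · have := M.start.2
    change 4 * M.start.val + 2 < 4 * M.nq
    omega
  · intro s hs
    obtain ⟨a, _, rfl⟩ := List.mem_map.1 hs
    exact lt_of_lt_of_le a.2 (nA_le_nN M.mcode)

theorem Machine.wf_iterate (M : Machine) (w : List (Fin (M.na + 1))) (n : ℕ) :
    WF M.mcode ((astep M.mcode)^[n] (ainit (M.describe w))) := by
  induction n with
  | zero => exact M.wf_init w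
  | succ n ih =>
    rw [Function.iterate_succ_apply']
    exact ih.astep M.goodM

/-- The `i`-th genuine tape symbol on a stack. -/
def rd (A : ℕ) (l : List ℕ) (i : ℕ) : ℕ := (l.filter (· < A)).getD i 0

theorem rd_cons_junk {A s : ℕ} (h : ¬ s < A) (l : List ℕ) : rd A (s :: l) = rd A l := by
  funext i
  simp [rd, h]

theorem rd_cons_zero {A s : ℕ} (h : s < A) (l : List ℕ) : rd A (s :: l) 0 = s := by
  simp [rd, h]

theorem rd_cons_succ {A s : ℕ} (h : s < A) (l : List ℕ) (i : ℕ) :
    rd A (s :: l) (i + 1) = rd A l i := by
  simp [rd, h]

theorem rd_head {A : ℕ} {l : List ℕ} (h : l.headD 0 < A) : rd A l 0 = l.headD 0 := by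
  cases l with
  | nil => simp [rd]
  | cons s l => exact rd_cons_zero h l

theorem rd_tail {A : ℕ} {l : List ℕ} (h : l.headD 0 < A) (i : ℕ) :
    rd A l.tail i = rd A l (i + 1) := by
  cases l with
  | nil => simp [rd]
  | cons s l => exact (rd_cons_succ h l i).symm

theorem rd_tail_junk {A : ℕ} {l : List ℕ} (h : ¬ l.headD 0 < A) : rd A l.tail = rd A l := by
  cases l with
  | nil => rfl
  | cons s l => exact (rd_cons_junk h l).symm

theorem rd_junk (m : MCode) (c s : ℕ) (l : List ℕ) :
    rd (nA m) (junk m c s ++ l) = rd (nA m) l := by
  unfold junk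
  rw [List.cons_append, rd_cons_junk (not_lt.2 (nA_le_recSym m c s))]
  split_ifs with h
  · rfl
  · exact rd_cons_junk h l

theorem rd_pushL (m : MCode) (c s : ℕ) (l : List ℕ) :
    rd (nA m) (pushL m c s ++ l) = rd (nA m) (realL m c s ++ l) := by
  unfold pushL
  split_ifs
  · rfl
  · rw [List.append_assoc, rd_junk]

theorem rd_pushR (m : MCode) (c s : ℕ) (l : List ℕ) :
    rd (nA m) (pushR m c s ++ l) = rd (nA m) (realR m c s ++ l) := by
  unfold pushR
  split_ifs
  · rw [List.append_assoc, rd_junk]
  · rfl

/-- The abstract configuration represents the machine configuration. -/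
structure Rel (M : Machine) (x : Cfg M) (a : ACfg) : Prop where
  state : a.1 / 4 = x.state
  right : ∀ i : ℕ, rd (M.na + 1) a.2.2 i = x.tape (x.head + 1 - side a.1 + i)
  left : ∀ i : ℕ, rd (M.na + 1) a.2.1 i = x.tape (x.head - side a.1 - i)

theorem rel_init (M : Machine) (w : List (Fin (M.na + 1))) :
    Rel M (M.init w) (ainit (M.describe w)) := by
  have hs : side (ainit (M.describe w)).1 = 1 := by
    simp only [ainit, side]
    omega
  refine ⟨?_, fun i => ?_, fun i => ?_⟩
  · change (4 * M.start.val + 2) / 4 = M.start.val
    omega
  · rw [hs]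
    have h1 : (w.map Fin.val).filter (· < M.na + 1) = w.map Fin.val := by
      rw [List.filter_eq_self]
      intro s hs
      obtain ⟨a, _, rfl⟩ := List.mem_map.1 hs
      simpa using a.2
    simp only [ainit, Machine.describe, Machine.init, rd, h1]
    have h2 : (0 : ℤ) + 1 - ((1 : ℕ) : ℤ) + i = i := by simp
    rw [h2, if_pos (Int.natCast_nonneg i), Int.toNat_natCast]
    exact List.getD_map w (0 : Fin (M.na + 1)) Fin.val
  · rw [hs]
    have h2 : ¬ (0 : ℤ) ≤ 0 - ((1 : ℕ) : ℤ) - i := by omega
    simp only [ainit, Machine.init, h2, if_false]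
    simp [rd]

theorem side_nextC_skip {m : MCode} {c s : ℕ} (h : ¬ s < nA m) : side (nextC m c s) = side c := by
  have := side_cases c
  simp only [nextC, h, if_false]
  unfold side at *
  omega

theorem Rel.skip {M : Machine} {x : Cfg M} {a : ACfg} (h : Rel M x a)
    (hs : ¬ top a < nA M.mcode) : Rel M x (astep M.mcode a) := by
  have hside := side_nextC_skip (c := a.1) hs
  refine ⟨?_, fun i => ?_, fun i => ?_⟩
  · rw [← h.state]
    have := side_cases a.1
    simp only [astep, nextC, hs, if_false]
    omega
  · simp only [astep, hside]
    rw [← h.right i, ← M.nA_mcode, rd_pushR]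
    simp only [realR, hs, if_false, List.nil_append, restR]
    split_ifs with h0
    · rfl
    · rw [rd_tail_junk (by simpa [top, h0] using hs)]
  · simp only [astep, hside]
    rw [← h.left i, ← M.nA_mcode, rd_pushL]
    simp only [realL, hs, if_false, List.nil_append, restL]
    split_ifs with h0
    · rw [rd_tail_junk (by simpa [top, h0] using hs)]
    · rfl

theorem Rel.real {M : Machine} {x : Cfg M} {a : ACfg} (h : Rel M x a)
    (hs : top a < nA M.mcode) (hx : M.halting x.state = false) :
    Rel M (M.step x) (astep M.mcode a) := by
  have hA := M.nA_mcode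
  have htop : top a = x.tape x.head := by
    by_cases h0 : side a.1 = 0
    · have := h.left 0
      rw [rd_head (by simpa [top, h0, hA] using hs), h0] at this
      simpa [top, h0] using this
    · have h1 : side a.1 = 1 := (side_cases _).resolve_left h0
      have := h.right 0
      rw [rd_head (by simpa [top, h0, hA] using hs), h1] at this
      simpa [top, h0] using this
  have hL : ∀ i : ℕ, rd (M.na + 1) (restL a) i = x.tape (x.head - 1 - i) := by
    intro i
    by_cases h0 : side a.1 = 0
    · simp only [restL, h0, if_true]
      rw [rd_tail (by simpa [top, h0, hA] using hs), h.left, h0]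
      congr 2
      push_cast
      ring
    · have h1 : side a.1 = 1 := (side_cases _).resolve_left h0
      simp only [restL, h0, if_false]
      rw [h.left, h1]
      rfl
  have hR : ∀ i : ℕ, rd (M.na + 1) (restR a) i = x.tape (x.head + 1 + i) := by
    intro i
    by_cases h0 : side a.1 = 0
    · simp only [restR, h0, if_true]
      rw [h.right, h0]
      simp
    · have h1 : side a.1 = 1 := (side_cases _).resolve_left h0
      simp only [restR, h0, if_false]
      rw [rd_tail (by simpa [top, h0, hA] using hs), h.right, h1]
      congr 2
      push_cast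
      ring
  have htr : tr M.mcode (a.1 / 4) (top a) = ((M.δ x.state (x.tape x.head)).1.val,
      (M.δ x.state (x.tape x.head)).2.1.val, (M.δ x.state (x.tape x.head)).2.2.code) := by
    rw [h.state, htop, M.tr_mcode]
  have hstep : M.step x = ⟨(M.δ x.state (x.tape x.head)).1,
      Function.update x.tape x.head (M.δ x.state (x.tape x.head)).2.1,
      x.head + (M.δ x.state (x.tape x.head)).2.2.shift⟩ := by
    simp [Machine.step, hx]
  rw [hstep]
  generalize M.δ x.state (x.tape x.head) = r at htr
  obtain ⟨q, b, mv⟩ := r
  have hb : (b : ℕ) < M.na + 1 := b.2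
  have hsd := side_cases a.1
  have hside : side (nextC M.mcode a.1 (top a)) = if mv.code = 0 then 0 else 1 := by
    simp only [nextC, hs, if_true, htr]
    unfold side at *
    split_ifs <;> omega
  have upd : ∀ n : ℤ, n ≠ x.head → Function.update x.tape x.head b n = x.tape n :=
    fun n hn => Function.update_of_ne hn _ _
  have upd0 : ∀ n : ℤ, n = x.head → Function.update x.tape x.head b n = b := by
    rintro n rfl
    simp
  refine ⟨?_, fun i => ?_, fun i => ?_⟩
  · simp only [astep, nextC, hs, if_true, htr]
    split_ifs <;> omega
  · simp only [astep, hside]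
    refine (congrFun (rd_pushR M.mcode _ _ _) i).trans ?_
    simp only [realR, hs, if_true, htr]
    cases mv <;> simp only [Move.code, Move.shift]
    · cases i with
      | zero => rw [upd0 _ (by simp)]; exact rd_cons_zero hb _
      | succ i =>
        rw [upd _ (by simp; omega)]
        refine (rd_cons_succ hb _ i).trans ((hR i).trans ?_)
        congr 2
        simp
        ring
    · cases i with
      | zero => rw [upd0 _ (by simp)]; exact rd_cons_zero hb _
      | succ i =>
        rw [upd _ (by simp; omega)]
        refine (rd_cons_succ hb _ i).trans ((hR i).trans ?_)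
        congr 2
        simp
        ring
    · rw [upd _ (by simp; omega)]
      refine (hR i).trans ?_
      congr 2
      simp
  · simp only [astep, hside]
    refine (congrFun (rd_pushL M.mcode _ _ _) i).trans ?_
    simp only [realL, hs, if_true, htr]
    cases mv <;> simp only [Move.code, Move.shift]
    · rw [upd _ (by simp; omega)]
      refine (hL i).trans ?_
      congr 2
      simp
      ring
    · rw [upd _ (by simp; omega)]
      refine (hL i).trans ?_
      congr 2
      simp
    · cases i with
      | zero => rw [upd0 _ (by simp)]; exact rd_cons_zero hb _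
      | succ i =>
        rw [upd _ (by simp; omega)]
        refine (rd_cons_succ hb _ i).trans ((hL i).trans ?_)
        congr 2
        simp
        ring

/-- Length of the stack that is read next. -/
def fetchLen (a : ACfg) : ℕ := if side a.1 = 0 then a.2.1.length else a.2.2.length

theorem fetchLen_skip {m : MCode} {a : ACfg} (hs : ¬ top a < nA m) :
    fetchLen (astep m a) < fetchLen a := by
  have hside := side_nextC_skip (c := a.1) hs
  have hA : 0 < nA m := Nat.succ_pos _
  obtain ⟨c, L, R⟩ := a
  simp only [fetchLen, astep, hside]
  by_cases h0 : side c = 0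
  · simp only [pushL, realL, hs, h0, if_true, if_false, restL, List.nil_append]
    cases L with
    | nil => simp [top, h0] at hs; omega
    | cons s L => simp
  · simp only [pushR, realR, hs, h0, if_false, restR, List.nil_append]
    cases R with
    | nil => simp [top, h0] at hs; omega
    | cons s L => simp

theorem Rel.exists_step {M : Machine} {x : Cfg M} (hx : M.halting x.state = false) :
    ∀ (k : ℕ) (a : ACfg), fetchLen a ≤ k → Rel M x a →
      ∃ n, Rel M (M.step x) ((astep M.mcode)^[n] a) := by
  intro k
  induction k with
  | zero =>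
    intro a hk h
    by_cases hs : top a < nA M.mcode
    · exact ⟨1, h.real hs hx⟩
    · have := fetchLen_skip hs
      omega
  | succ k ih =>
    intro a hk h
    by_cases hs : top a < nA M.mcode
    · exact ⟨1, h.real hs hx⟩
    · obtain ⟨n, hn⟩ := ih _ (by have := fetchLen_skip hs; omega) (h.skip hs)
      exact ⟨n + 1, hn⟩

theorem halts_iff (M : Machine) (w : List (Fin (M.na + 1))) :
    M.Halts w ↔ ∃ n, haltB M.mcode (((astep M.mcode)^[n] (ainit (M.describe w))).1 / 4) = true := by
  constructor
  · rintro ⟨k, hk⟩
    by_contra hcon
    push Not at hcon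
    have key : ∀ j, ∃ n, Rel M (M.step^[j] (M.init w))
        ((astep M.mcode)^[n] (ainit (M.describe w))) := by
      intro j
      induction j with
      | zero => exact ⟨0, rel_init M w⟩
      | succ j ih =>
        obtain ⟨n, hn⟩ := ih
        have hh : M.halting (M.step^[j] (M.init w)).state = false := by
          have := hcon n
          rw [hn.state, M.haltB_mcode] at this
          simpa using this
        obtain ⟨n', hn'⟩ := Rel.exists_step hh _ _ le_rfl hn
        refine ⟨n' + n, ?_⟩
        rw [Function.iterate_succ_apply', Function.iterate_add_apply]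
        exact hn'
    obtain ⟨n, hn⟩ := key k
    have := hcon n
    rw [hn.state, M.haltB_mcode] at this
    exact this hk
  · rintro ⟨n, hn⟩
    by_contra hcon
    have hnh : ∀ j, M.halting (M.step^[j] (M.init w)).state = false := by
      intro j
      by_contra h
      exact hcon ⟨j, by simpa using h⟩
    have key : ∀ n, ∃ j, Rel M (M.step^[j] (M.init w))
        ((astep M.mcode)^[n] (ainit (M.describe w))) := by
      intro n
      induction n with
      | zero => exact ⟨0, rel_init M w⟩
      | succ n ih =>
        obtain ⟨j, hj⟩ := ih
        rw [Function.iterate_succ_apply']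
        by_cases hs : top ((astep M.mcode)^[n] (ainit (M.describe w))) < nA M.mcode
        · refine ⟨j + 1, ?_⟩
          rw [Function.iterate_succ_apply']
          exact hj.real hs (hnh j)
        · exact ⟨j, hj.skip hs⟩
    obtain ⟨j, hj⟩ := key n
    rw [hj.state, M.haltB_mcode, hnh j] at hn
    exact Bool.false_ne_true hn

end Vale.Agent.P113
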