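import Mathlib
import Vale.Agent.P113.Field
import Vale.Agent.P113.Sim

/-! The trajectory enters the detector exactly when the machine halts. -/

open Set

namespace Vale.Agent.P113

/-- The detector: third coordinate in `(1/2, 1)` modulo one. -/
def detector : Set T3 := {x | x 2 ∈ ((↑) : ℝ → UnitAddCircle) '' Ioo (1 / 2) 1}

theorem isOpen_detector : IsOpen detector := by
  have h : IsOpen (((↑) : ℝ → UnitAddCircle) '' Ioo (1 / 2) 1) :=
    QuotientAddGroup.isOpenQuotientMap_mk.isOpenMap _ isOpen_Ioo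
  exact h.preimage (continuous_apply (2 : Fin 3) : Continuous fun x : T3 => x 2)

theorem not_mem_detector {p : Fin 3 → ℝ} (h : p 2 ∈ Icc (0 : ℝ) (1 / 2)) : proj p ∉ detector := by
  rintro ⟨z, hz, e⟩
  have h1 : z ∈ Ico (0 : ℝ) (0 + 1) := ⟨by linarith [hz.1], by linarith [hz.2]⟩
  have h2 : p 2 ∈ Ico (0 : ℝ) (0 + 1) := ⟨h.1, by linarith [h.2]⟩
  have := (AddCircle.coe_eq_coe_iff_of_mem_Ico h1 h2).1 e
  linarith [hz.1, h.2]

/-- Positions at integer times for the field that starts from the configuration `a`. -/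
noncomputable def pos (m : MCode) (a : ACfg) : ℕ → Fin 3 → ℝ :=
  posSeq (fun n => dir (n % 11)) (seqProf m (valQ m (a.1 :: a.2.1)) (valQ m a.2.2)) 0

theorem pos_succ_active (m : MCode) (a : ACfg) (r : ℕ) {j : ℕ} (h2 : 2 ≤ j) (h11 : j < 11) :
    pos m a (11 * r + j + 1) = stageMap m j (pos m a (11 * r + j)) := by
  have h : (11 * r + j) % 11 = j := by omega
  simp only [pos, posSeq, seqProf, h, h2, true_or, if_true, prof'_ge _ _ _ h2, stageMap]

theorem pos_succ_idle (m : MCode) (a : ACfg) {n : ℕ} (h1 : n % 11 < 2) (h2 : 11 ≤ n) :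
    pos m a (n + 1) = pos m a n := by
  have h : ¬ (2 ≤ n % 11 ∨ n < 11) := by omega
  simp only [pos, posSeq, seqProf, h, if_false, Pi.single_zero, add_zero]

theorem pos_one (m : MCode) (a : ACfg) : pos m a 1 = ![(valQ m (a.1 :: a.2.1) : ℝ), 0, 0] := by
  simp only [pos, posSeq, seqProf]
  rw [if_pos (by norm_num), prof'_lt _ _ _ (by norm_num)]
  funext l
  fin_cases l <;> simp [dir, cf]

theorem pos_two (m : MCode) (a : ACfg) : pos m a 2 = emb m a := by
  have : pos m a 2 = pos m a 1 + Pi.single (dir (1 % 11))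
      (seqProf m (valQ m (a.1 :: a.2.1)) (valQ m a.2.2) 1 (proj (pos m a 1))) := rfl
  rw [this, seqProf, if_pos (by norm_num), prof'_lt _ _ _ (by norm_num), pos_one]
  funext l
  fin_cases l <;> simp [dir, cf, emb]

theorem hflag_piece {m : MCode} {b : ACfg} (hb : WF m b) :
    hflag m (piece m b) = cond (haltB m (b.1 / 4)) (1 / 2) 0 := by
  rw [hflag, piece_div hb]

theorem pos_round {m : MCode} (hm : GoodM m) {a b : ACfg} (hb : WF m b) {r : ℕ}
    (h : pos m a (11 * r + 2) = emb m b) (hh : haltB m (b.1 / 4) = false) {j : ℕ} (h2 : 2 ≤ j)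
    (h11 : j ≤ 11) :
    pos m a (11 * r + j) = waypoint m (piece m b) (valQ m (restL b)) (valQ m (restR b)) j := by
  induction j, h2 using Nat.le_induction with
  | base => rw [h, emb_eq_waypoint hb]
  | succ j hj ih =>
    rw [← add_assoc, pos_succ_active m a r hj (by omega), ih (by omega),
      stage_waypoint hm (piece_lt hb) (valQ_mem hb.dig_restL) (valQ_mem hb.dig_restR)
        (by rw [hflag_piece hb, hh]; rfl) hj (by omega)]

theorem pos_next {m : MCode} (hm : GoodM m) {a b : ACfg} (hb : WF m b) {r : ℕ}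
    (h : pos m a (11 * r + 2) = emb m b) (hh : haltB m (b.1 / 4) = false) :
    pos m a (11 * r + 11) = emb m (astep m b) ∧ pos m a (11 * r + 12) = emb m (astep m b) ∧
      pos m a (11 * (r + 1) + 2) = emb m (astep m b) := by
  have h1 : pos m a (11 * r + 11) = emb m (astep m b) := by
    rw [pos_round hm hb h hh (by norm_num) le_rfl, emb_astep hb]
  have h2 : pos m a (11 * r + 12) = emb m (astep m b) := by
    rw [← h1]
    exact pos_succ_idle m a (n := 11 * r + 11) (by omega) (by omega)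
  refine ⟨h1, h2, ?_⟩
  rw [← h2]
  exact pos_succ_idle m a (n := 11 * r + 12) (by omega) (by omega)

theorem wf_iterate {m : MCode} (hm : GoodM m) {a : ACfg} (ha : WF m a) (r : ℕ) :
    WF m ((astep m)^[r] a) := by
  induction r with
  | zero => exact ha
  | succ n ih =>
    rw [Function.iterate_succ_apply']
    exact ih.astep hm

theorem pos_iterate {m : MCode} (hm : GoodM m) {a : ACfg} (ha : WF m a) (r : ℕ)
    (hh : ∀ r' < r, haltB m (((astep m)^[r'] a).1 / 4) = false) :
    pos m a (11 * r + 2) = emb m ((astep m)^[r] a) := by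
  induction r with
  | zero => exact pos_two m a
  | succ r ih =>
    rw [Function.iterate_succ_apply']
    exact (pos_next hm (wf_iterate hm ha r) (ih fun r' hr' => hh r' (by omega))
      (hh r (by omega))).2.2

theorem pos_z_mem {m : MCode} (hm : GoodM m) {a : ACfg} (ha : WF m a)
    (hh : ∀ r, haltB m (((astep m)^[r] a).1 / 4) = false) (n : ℕ) :
    pos m a n 2 ∈ Icc (0 : ℝ) (1 / 2) := by
  by_cases hn : n < 2
  · interval_cases n
    · simp [pos, posSeq]
    · simp [pos_one]
  · obtain ⟨r, j, h2, h12, rfl⟩ : ∃ r j, 2 ≤ j ∧ j ≤ 12 ∧ n = 11 * r + j :=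
      ⟨(n - 2) / 11, (n - 2) % 11 + 2, by omega, by omega, by omega⟩
    have hb := wf_iterate hm ha r
    have h := pos_iterate hm ha r fun r' _ => hh r'
    rcases eq_or_lt_of_le h12 with rfl | h11
    · rw [(pos_next hm hb h (hh r)).2.1]
      simp [emb]
    · rw [pos_round hm hb h (hh r) h2 (by omega)]
      exact waypoint_z (piece_lt hb) (valQ_mem hb.dig_restL) (valQ_mem hb.dig_restR) h2 (by omega)

theorem pos_halt {m : MCode} {a b : ACfg} (hb : WF m b) {r : ℕ}
    (h : pos m a (11 * r + 2) = emb m b) (hh : haltB m (b.1 / 4) = true) :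
    proj (pos m a (11 * r + 2 + 1)) ∈ detector := by
  rw [pos_succ_active m a r le_rfl (by norm_num), h, emb_eq_waypoint hb,
    stage_first (piece_lt hb) (valQ_mem hb.dig_restL) (valQ_mem hb.dig_restR), hflag_piece hb, hh]
  refine ⟨_, ?_, rfl⟩
  have hξ := Inner.mem_Ioo (one_le_base m) (valQ_mem hb.dig_restL)
  have h1 := (ivZ_valid (piece_lt hb)).pt_mem hξ
  have h0 : (0 : ℝ) < eta m := by exact_mod_cast eta_pos m
  have h2 := (ivZ_pt_mem (piece_lt hb) (σ := 1) (by simp)).2
  have h3 : (ivZ m (piece m b)).pt (valQ m (restL b)) < (ivZ m (piece m b)).pt 1 := by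
    simp only [Iv.pt, ivZ]
    nlinarith [hξ.2]
  simp only [cond_true, Matrix.cons_val]
  push_cast
  exact ⟨by linarith [h1.1], by linarith⟩

theorem detect {m : MCode} (hm : GoodM m) {a : ACfg} (ha : WF m a) {X : ℝ → T3}
    (hX : IsTrajectory (uField m (valQ m (a.1 :: a.2.1)) (valQ m a.2.2)) (proj 0) X) :
    (∃ t, 0 ≤ t ∧ X t ∈ detector) ↔ ∃ r, haltB m (((astep m)^[r] a).1 / 4) = true := by
  have hT := (isShearSeq_uField m _ _).traj_eq hX
  constructor
  · rintro ⟨t, ht, hO⟩
    by_contra hcon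
    have hh : ∀ r, haltB m (((astep m)^[r] a).1 / 4) = false := fun r => by
      by_contra h
      exact hcon ⟨r, by simpa using h⟩
    rw [hT ⌊t⌋₊ t (Nat.floor_le ht) (Nat.lt_floor_add_one t).le] at hO
    refine not_mem_detector ?_ hO
    have h1 := pos_z_mem hm ha hh ⌊t⌋₊
    have h2 := pos_z_mem hm ha hh (⌊t⌋₊ + 1)
    have h3 := S_nonneg (t - ⌊t⌋₊)
    have h4 := S_le_one (t - ⌊t⌋₊)
    simp only [pos, posSeq] at h1 h2
    generalize S (t - ⌊t⌋₊) = σ at *
    generalize seqProf m _ _ _ _ = Δ at *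
    by_cases hd : dir (⌊t⌋₊ % 11) = 2
    · simp only [hd, Pi.add_apply, Pi.single_eq_same] at h2 ⊢
      exact ⟨by nlinarith [h1.1, h2.1], by nlinarith [h1.2, h2.2]⟩
    · simp only [Pi.add_apply, Pi.single_eq_of_ne (Ne.symm hd), add_zero]
      exact h1
  · intro h
    classical
    have h1 := Nat.find_spec h
    have h2 : ∀ r' < Nat.find h, haltB m (((astep m)^[r'] a).1 / 4) = false := fun r' hr' => by
      simpa using Nat.find_min h hr'
    have h3 := pos_halt (wf_iterate hm ha _) (pos_iterate hm ha _ h2) h1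
    refine ⟨((11 * Nat.find h + 2 : ℕ) : ℝ) + 1, by positivity, ?_⟩
    rw [hT (11 * Nat.find h + 2) _ (by linarith) le_rfl, add_sub_cancel_left, S_right le_rfl,
      one_mul]
    exact h3

end Vale.Agent.P113
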