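import Mathlib
import Vale.Agent.P113.Detect

/-! The force compiler. -/

open Set

namespace Vale.Agent.P113

/-- The velocity field attached to a description. -/
noncomputable def uOf (c : PairCode) : ℝ → T3 → Fin 3 → ℝ :=
  uField c.1 (valQ c.1 ((ainit c).1 :: (ainit c).2.1)) (valQ c.1 (ainit c).2.2)

/-- Queries to a force program. -/
abbrev Query : Type := (Fin 4 → ℕ) × Fin 3 × (Fin 4 → ℤ × ℕ) × (ℤ × ℕ)

theorem realComp_of_computableReal {ν : ℝ} (h : ComputableReal ν) {α : Type} [Primcodable α] :
    RealComp fun _ : α => ν := by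
  obtain ⟨a, ha, e⟩ := h
  refine ⟨fun p => ((a p.2).1 : ℚ) / (((a p.2).2 : ℚ) + 1),
    RatComp.ofPair (ha.comp Computable.snd), fun _ k => ?_⟩
  rw [abs_sub_comm]
  convert e k using 3
  simp [ratVal]

theorem realComp_force_aux {α : Type} [Primcodable α] {ν : ℝ} (hν : ComputableReal ν)
    {m : α → MCode} {x₀ y₀ : α → ℝ} {i : α → Fin 3} {n : α → Fin 4 → ℕ}
    {z : α → Fin 4 → ℤ × ℕ} (hm : Computable m) (hx : RealComp x₀) (hy : RealComp y₀)
    (hi : Computable i) (hn : Computable n) (hz : Computable z) :
    RealComp fun a => mixedDeriv (n a) (lift (cpt (force ν (uField (m a) (x₀ a) (y₀ a))) (i a)))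
      fun j => ratVal (z a j) := by
  have hα : ∀ l, Computable fun a => n a l := fun l =>
    Computable.fin_app.comp hn (Computable.const l)
  have hz' : ∀ l, Computable fun a => z a l := fun l =>
    Computable.fin_app.comp hz (Computable.const l)
  have key := fun e : Fin 4 → ℕ => realComp_tens (n := fun a => n a + e)
    hm hx hy hi (fun l => c_add (hα l) (Computable.const (e l))) hz'
  refine ((key (Pi.single 0 1)).sub ((realComp_of_computableReal hν).mul
    (((key (Pi.single 1 2)).add (key (Pi.single 2 2))).add (key (Pi.single 3 2))))).of_eq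
    fun p => ?_
  rw [lift_force, lift_uField, mixedDeriv_heat_tens _ _ (fac4_smooth _)]

theorem c_ainit : Computable ainit := by
  unfold ainit
  fun_prop

theorem realComp_force {ν : ℝ} (hν : ComputableReal ν) :
    RealComp fun p : PairCode × Query => mixedDeriv p.2.1 (lift (cpt (force ν (uOf p.1)) p.2.2.1))
      fun j => ratVal (p.2.2.2.1 j) := by
  have hm : Computable fun p : PairCode × Query => p.1.1 := Computable.fst.comp Computable.fst
  have ha : Computable fun p : PairCode × Query => ainit p.1 := c_ainit.comp Computable.fst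
  exact realComp_force_aux hν hm
    (RealComp.ofRat (ratComp_valQ hm (c_cons (c_fst ha) (c_fst (c_snd ha)))))
    (RealComp.ofRat (ratComp_valQ hm (c_snd (c_snd ha))))
    (c_fst (c_snd Computable.snd)) (c_fst Computable.snd) (c_fst (c_snd (c_snd Computable.snd)))

theorem exists_compiler {α β γ : Type} [Primcodable α] [Primcodable β] [Primcodable γ]
    {g : α × β → γ} (hg : Computable g) :
    ∃ compile : α → Nat.Partrec.Code, Computable compile ∧
      ∀ a b, Runs (compile a) b (g (a, b)) := by
  obtain ⟨c, hc⟩ := Nat.Partrec.Code.exists_code.1 hg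
  refine ⟨fun a => c.curry (Encodable.encode a),
    (Nat.Partrec.Code.primrec₂_curry.comp (Primrec.const c) Primrec.encode).to_comp,
    fun a b => ?_⟩
  unfold Runs
  rw [Nat.Partrec.Code.eval_curry, hc]
  have : Nat.pair (Encodable.encode a) (Encodable.encode b) = Encodable.encode (a, b) := rfl
  rw [this]
  simp

theorem exists_forceCompiler {ν : ℝ} (hν : ComputableReal ν) :
    ∃ compile, IsForceCompiler compile fun M w => force ν (uOf (M.describe w)) := by
  obtain ⟨r, hr, e⟩ := realComp_force hν
  obtain ⟨g, hg, eg⟩ := (hr.comp (g := fun p : PairCode × Query => (p, p.2.2.2.2.2))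
    (by fun_prop)).toPair
  obtain ⟨compile, hc, ec⟩ := exists_compiler hg
  refine ⟨compile, hc, fun M w i => smooth_force ν (smooth_uField _ _ _) i, ?_, ?_⟩
  · intro M w α i z ε hε
    refine ⟨g (M.describe w, α, i, z, ε), ec _ _, ?_⟩
    have h1 := e (M.describe w, α, i, z, ε) ε.2
    have h2 : ratVal (g (M.describe w, α, i, z, ε)) = r ((M.describe w, α, i, z, ε), ε.2) := by
      rw [← eg]
      simp [ratVal]
    rw [h2, abs_sub_comm]
    refine h1.trans ?_
    unfold ratVal at hε ⊢
    have h3 : (0 : ℝ) < (ε.2 : ℝ) + 1 := by positivity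
    have h4 : (0 : ℝ) < ε.1 := (div_pos_iff_of_pos_right h3).1 hε
    have h5 : (1 : ℝ) ≤ ε.1 := by
      have : (0 : ℤ) < ε.1 := by exact_mod_cast h4
      exact_mod_cast this
    gcongr
  · refine ⟨3, by norm_num, fun M => ⟨11, by norm_num, force ν (uField M.mcode 0 0),
      fun t _ => force_periodic ν _ t, fun w t ht => force_late ν _ _ _ ht⟩⟩

end Vale.Agent.P113
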