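import Mathlib
import Vale.Agent.P113.Torus

/-! Uniqueness of classical solutions by the energy method. -/

open Set MeasureTheory

namespace Vale.Agent.P113

theorem abs_mul_mul_le {a b c C : ℝ} (hc : |c| ≤ C) : -(a * b * c) ≤ C * ((a ^ 2 + b ^ 2) / 2) := by
  have h1 : -(a * b * c) ≤ |a * b| * |c| := by
    rw [← abs_mul]
    exact neg_le_abs _
  have h2 : |a * b| ≤ (a ^ 2 + b ^ 2) / 2 := by
    rw [abs_le]
    constructor <;> nlinarith [sq_nonneg (a + b), sq_nonneg (a - b)]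
  have h3 : |a * b| * |c| ≤ (a ^ 2 + b ^ 2) / 2 * C :=
    mul_le_mul h2 hc (abs_nonneg _) (by positivity)
  linarith

theorem energy_ineq {ν : ℝ} (hν : 0 ≤ ν) (U V D : Fin 3 → T3 → ℝ) (P Q : T3 → ℝ)
    (hU : ∀ i, C1 (U i)) (hU2 : ∀ i j, C1 (pd j (U i)))
    (hV : ∀ i, C1 (V i)) (hV2 : ∀ i j, C1 (pd j (V i))) (hP : C1 P) (hQ : C1 Q)
    (divU : ∀ x, ∑ j, pd j (U j) x = 0) (divV : ∀ x, ∑ j, pd j (V j) x = 0)
    (hD : ∀ x i, D i x = -(∑ j, U j x * pd j (U i) x - ∑ j, V j x * pd j (V i) x)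
      - (pd i P x - pd i Q x) + ν * (∑ j, pd j (pd j (U i)) x - ∑ j, pd j (pd j (V i)) x))
    (hDc : ∀ i, Continuous (D i)) {C : ℝ} (hC : ∀ i j x, |pd j (U i) x| ≤ C) :
    ∫ x, ∑ i, 2 * (U i x - V i x) * D i x ≤ 6 * C * ∫ x, ∑ i, (U i x - V i x) ^ 2 := by
  set W : Fin 3 → T3 → ℝ := fun i x => U i x - V i x with hW
  have hWc : ∀ i, C1 (W i) := fun i => (hU i).sub (hV i)
  have hpW : ∀ i j, pd j (W i) = fun x => pd j (U i) x - pd j (V i) x := fun i j =>
    funext fun x => pd_sub (hU i).diff (hV i).diff j x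
  have hW2 : ∀ i j, C1 (pd j (W i)) := fun i j => by
    rw [hpW]
    exact (hU2 i j).sub (hV2 i j)
  have hpW2 : ∀ i j x, pd j (pd j (W i)) x = pd j (pd j (U i)) x - pd j (pd j (V i)) x :=
    fun i j x => by
      rw [hpW]
      exact pd_sub (hU2 i j).diff (hV2 i j).diff j x
  set F : Fin 3 → T3 → ℝ := fun j x =>
    (2 * ν) * (W 0 x * pd j (W 0) x + W 1 x * pd j (W 1) x + W 2 x * pd j (W 2) x)
      - V j x * (W 0 x * W 0 x + W 1 x * W 1 x + W 2 x * W 2 x)
      - 2 * (W j x * (P x - Q x)) with hF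
  have hFc : ∀ j, C1 (F j) := fun j =>
    (((C1.const (2 * ν)).mul ((((hWc 0).mul (hW2 0 j)).add ((hWc 1).mul (hW2 1 j))).add
      ((hWc 2).mul (hW2 2 j)))).sub ((hV j).mul ((((hWc 0).mul (hWc 0)).add
      ((hWc 1).mul (hWc 1))).add ((hWc 2).mul (hWc 2))))).sub
      ((C1.const 2).mul ((hWc j).mul (hP.sub hQ)))
  have hpF : ∀ j x, pd j (F j) x =
      (2 * ν) * ((pd j (W 0) x * pd j (W 0) x + W 0 x * pd j (pd j (W 0)) x)
        + (pd j (W 1) x * pd j (W 1) x + W 1 x * pd j (pd j (W 1)) x)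
        + (pd j (W 2) x * pd j (W 2) x + W 2 x * pd j (pd j (W 2)) x))
      - (pd j (V j) x * (W 0 x * W 0 x + W 1 x * W 1 x + W 2 x * W 2 x)
        + V j x * (2 * W 0 x * pd j (W 0) x + 2 * W 1 x * pd j (W 1) x
          + 2 * W 2 x * pd j (W 2) x))
      - 2 * (pd j (W j) x * (P x - Q x) + W j x * (pd j P x - pd j Q x)) := by
    intro j x
    have a0 := (hWc 0).diff.hasDerivAt j x
    have a1 := (hWc 1).diff.hasDerivAt j x
    have a2 := (hWc 2).diff.hasDerivAt j x
    have aj := (hWc j).diff.hasDerivAt j x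
    have b0 := (hW2 0 j).diff.hasDerivAt j x
    have b1 := (hW2 1 j).diff.hasDerivAt j x
    have b2 := (hW2 2 j).diff.hasDerivAt j x
    have v := (hV j).diff.hasDerivAt j x
    have p := hP.diff.hasDerivAt j x
    have q := hQ.diff.hasDerivAt j x
    have := (((((a0.mul b0).add (a1.mul b1)).add (a2.mul b2)).const_mul (2 * ν)).sub
      (v.mul (((a0.mul a0).add (a1.mul a1)).add (a2.mul a2)))).sub
      ((aj.mul (p.sub q)).const_mul 2)
    have h2 := this.deriv
    simp only [Pi.add_apply, Pi.mul_apply, Pi.sub_apply, line_zero] at h2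
    refine Eq.trans h2 ?_
    ring
  have hpt : ∀ x, ∑ i, 2 * (U i x - V i x) * D i x
      ≤ 6 * C * (∑ i, (U i x - V i x) ^ 2) + ∑ j, pd j (F j) x := by
    intro x
    have dU := divU x
    have dV := divV x
    simp only [Fin.sum_univ_three] at dU dV ⊢
    simp only [hD, hpF, hpW2, Fin.sum_univ_three]
    simp only [hpW]
    simp only [hW]
    have e00 := abs_mul_mul_le (a := U 0 x - V 0 x) (b := U 0 x - V 0 x) (hC 0 0 x)
    have e01 := abs_mul_mul_le (a := U 0 x - V 0 x) (b := U 1 x - V 1 x) (hC 0 1 x)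
    have e02 := abs_mul_mul_le (a := U 0 x - V 0 x) (b := U 2 x - V 2 x) (hC 0 2 x)
    have e10 := abs_mul_mul_le (a := U 1 x - V 1 x) (b := U 0 x - V 0 x) (hC 1 0 x)
    have e11 := abs_mul_mul_le (a := U 1 x - V 1 x) (b := U 1 x - V 1 x) (hC 1 1 x)
    have e12 := abs_mul_mul_le (a := U 1 x - V 1 x) (b := U 2 x - V 2 x) (hC 1 2 x)
    have e20 := abs_mul_mul_le (a := U 2 x - V 2 x) (b := U 0 x - V 0 x) (hC 2 0 x)
    have e21 := abs_mul_mul_le (a := U 2 x - V 2 x) (b := U 1 x - V 1 x) (hC 2 1 x)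
    have e22 := abs_mul_mul_le (a := U 2 x - V 2 x) (b := U 2 x - V 2 x) (hC 2 2 x)
    have hsq : 0 ≤ ν * ((pd 0 (U 0) x - pd 0 (V 0) x) ^ 2 + (pd 0 (U 1) x - pd 0 (V 1) x) ^ 2
      + (pd 0 (U 2) x - pd 0 (V 2) x) ^ 2 + (pd 1 (U 0) x - pd 1 (V 0) x) ^ 2
      + (pd 1 (U 1) x - pd 1 (V 1) x) ^ 2 + (pd 1 (U 2) x - pd 1 (V 2) x) ^ 2
      + (pd 2 (U 0) x - pd 2 (V 0) x) ^ 2 + (pd 2 (U 1) x - pd 2 (V 1) x) ^ 2
      + (pd 2 (U 2) x - pd 2 (V 2) x) ^ 2) := by positivity
    linear_combination 2 * (e00 + e01 + e02 + e10 + e11 + e12 + e20 + e21 + e22) + 2 * hsq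
      + ((U 0 x - V 0 x) ^ 2 + (U 1 x - V 1 x) ^ 2 + (U 2 x - V 2 x) ^ 2) * dV
      + 2 * (P x - Q x) * (dU - dV)
  have hi1 : Integrable fun x => ∑ i, 2 * (U i x - V i x) * D i x :=
    integrable_of_continuous (continuous_finsetSum _ fun i _ =>
      (continuous_const.mul (hWc i).cont).mul (hDc i))
  have hi2 : Integrable fun x => ∑ i, (U i x - V i x) ^ 2 :=
    integrable_of_continuous (continuous_finsetSum _ fun i _ => (hWc i).cont.pow 2)
  have hi3 : ∀ j, Integrable (pd j (F j)) := fun j => integrable_of_continuous ((hFc j).cont_pd j)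
  have hi4 : Integrable fun x => ∑ j, pd j (F j) x := integrable_finsetSum _ fun j _ => hi3 j
  calc ∫ x, ∑ i, 2 * (U i x - V i x) * D i x
      ≤ ∫ x, (6 * C * (∑ i, (U i x - V i x) ^ 2) + ∑ j, pd j (F j) x) :=
        integral_mono hi1 ((hi2.const_mul _).add hi4) hpt
    _ = 6 * C * ∫ x, ∑ i, (U i x - V i x) ^ 2 := by
        rw [integral_add (hi2.const_mul _) hi4, integral_const_mul,
          integral_finsetSum _ fun j _ => hi3 j]
        simp [fun j => (hFc j).integral_pd j]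

theorem ContOn.slice {T : ℝ} {g : ℝ → T3 → ℝ} (h : ContOn T g) {t : ℝ} (ht : t ∈ Icc 0 T) :
    Continuous (g t) := by
  have : ContinuousOn (fun x : T3 => g t x) univ :=
    h.comp (f := fun x : T3 => (t, x)) (by fun_prop) fun x _ => ⟨ht, mem_univ x⟩
  exact continuousOn_univ.1 this

theorem ContOn.bounded {T : ℝ} {g : ℝ → T3 → ℝ} (h : ContOn T g) :
    ∃ C, ∀ t ∈ Icc 0 T, ∀ x, |g t x| ≤ C := by
  obtain ⟨C, hC⟩ := (isCompact_Icc.prod isCompact_univ).exists_bound_of_continuousOn h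
  exact ⟨C, fun t ht x => hC (t, x) ⟨ht, mem_univ x⟩⟩

theorem IsClassical.c1_u {ν T : ℝ} {f u : ℝ → T3 → Fin 3 → ℝ} {p : ℝ → T3 → ℝ}
    (h : IsClassical ν f T u p) {t : ℝ} (ht : t ∈ Icc 0 T) (i : Fin 3) : C1 (cpt u i t) :=
  ⟨(h.cont_u i).slice ht, h.space_diff i t ht, fun j => (h.cont_pd i j).slice ht⟩

theorem IsClassical.c1_pd {ν T : ℝ} {f u : ℝ → T3 → Fin 3 → ℝ} {p : ℝ → T3 → ℝ}
    (h : IsClassical ν f T u p) {t : ℝ} (ht : t ∈ Icc 0 T) (i j : Fin 3) :
    C1 (pd j (cpt u i t)) :=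
  ⟨(h.cont_pd i j).slice ht, h.space_diff₂ i j t ht, fun k => (h.cont_pd₂ i j k).slice ht⟩

theorem IsClassical.c1_p {ν T : ℝ} {f u : ℝ → T3 → Fin 3 → ℝ} {p : ℝ → T3 → ℝ}
    (h : IsClassical ν f T u p) {t : ℝ} (ht : t ∈ Icc 0 T) : C1 (p t) :=
  ⟨h.cont_p.slice ht, h.pressure_diff t ht, fun j => (h.cont_grad_p j).slice ht⟩

theorem velocity_unique {ν T : ℝ} (hν : 0 ≤ ν) (hT : 0 < T) {f u v : ℝ → T3 → Fin 3 → ℝ}
    {p q : ℝ → T3 → ℝ} (hu : IsClassical ν f T u p) (hv : IsClassical ν f T v q) :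
    ∀ t ∈ Icc 0 T, v t = u t := by
  set E : ℝ → ℝ := fun t => ∫ x, ∑ i, (u t x i - v t x i) ^ 2 with hE
  set G : ℝ → T3 → ℝ := fun t x =>
    ∑ i, 2 * (u t x i - v t x i) * (dt T (cpt u i) t x - dt T (cpt v i) t x) with hG
  have hGc : ContOn T G := by
    unfold ContOn
    refine continuousOn_finsetSum _ fun i _ => ?_
    exact (continuousOn_const.mul ((hu.cont_u i).sub (hv.cont_u i))).mul
      ((hu.cont_dt i).sub (hv.cont_dt i))
  have hec : ContOn T fun t x => ∑ i, (u t x i - v t x i) ^ 2 := by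
    unfold ContOn
    refine continuousOn_finsetSum _ fun i _ => ?_
    exact ((hu.cont_u i).sub (hv.cont_u i)).pow 2
  obtain ⟨B, hB⟩ := hGc.bounded
  have hEc : ContinuousOn E (Icc 0 T) :=
    continuousOn_integral_of_compact_support (μ := (volume : Measure T3))
      (f := fun t x => ∑ i, (u t x i - v t x i) ^ 2) isCompact_univ hec
      (fun _ x _ hx => absurd (mem_univ x) hx)
  have hEd : ∀ t ∈ Ioo 0 T, HasDerivAt E (∫ x, G t x) t := by
    intro t ht
    have hn : Ioo 0 T ∈ nhds t := isOpen_Ioo.mem_nhds ht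
    refine (hasDerivAt_integral_of_dominated_loc_of_deriv_le (μ := (volume : Measure T3))
      (F := fun (s : ℝ) (x : T3) => ∑ i, (u s x i - v s x i) ^ 2) (F' := G)
      (x₀ := t) (s := Ioo 0 T) (bound := fun _ => B) hn ?_ ?_ ?_ ?_ (integrable_const B) ?_).2
    · filter_upwards [hn] with s hs
      exact (hec.slice (Ioo_subset_Icc_self hs)).aestronglyMeasurable
    · exact integrable_of_continuous (hec.slice (Ioo_subset_Icc_self ht))
    · exact (hGc.slice (Ioo_subset_Icc_self ht)).aestronglyMeasurable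
    · exact Filter.Eventually.of_forall fun x s hs => hB s (Ioo_subset_Icc_self hs) x
    · refine Filter.Eventually.of_forall fun x s hs => ?_
      have hs' : Icc 0 T ∈ nhds s := Icc_mem_nhds hs.1 hs.2
      refine HasDerivAt.fun_sum fun i _ => ?_
      have h1 := ((hu.time_diff i s (Ioo_subset_Icc_self hs) x).hasDerivWithinAt).hasDerivAt hs'
      have h2 := ((hv.time_diff i s (Ioo_subset_Icc_self hs) x).hasDerivWithinAt).hasDerivAt hs'
      have h3 := (h1.sub h2).pow 2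
      refine HasDerivAt.congr_deriv h3 ?_
      simp [dt, cpt]
  obtain ⟨C, hC⟩ : ∃ C, ∀ i j, ∀ t ∈ Icc 0 T, ∀ x, |pd j (cpt u i t) x| ≤ C := by
    choose C hC using fun i j => (hu.cont_pd i j).bounded
    refine ⟨∑ i, ∑ j, |C i j|, fun i j t ht x => (hC i j t ht x).trans ?_⟩
    calc C i j ≤ |C i j| := le_abs_self _
      _ ≤ ∑ j, |C i j| :=
        Finset.single_le_sum (f := fun j => |C i j|) (fun _ _ => abs_nonneg _) (Finset.mem_univ j)
      _ ≤ ∑ i, ∑ j, |C i j| :=
        Finset.single_le_sum (f := fun i => ∑ j, |C i j|)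
          (fun _ _ => Finset.sum_nonneg fun _ _ => abs_nonneg _) (Finset.mem_univ i)
  have hineq : ∀ t ∈ Icc 0 T, ∫ x, G t x ≤ 6 * C * E t := by
    intro t ht
    refine energy_ineq hν (fun i => cpt u i t) (fun i => cpt v i t)
      (fun i x => dt T (cpt u i) t x - dt T (cpt v i) t x) (p t) (q t) (hu.c1_u ht) (hu.c1_pd ht)
      (hv.c1_u ht) (hv.c1_pd ht) (hu.c1_p ht) (hv.c1_p ht) (hu.div_free t ht) (hv.div_free t ht)
      ?_ (fun i => ((hu.cont_dt i).slice ht).sub ((hv.cont_dt i).slice ht))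
      (fun i j x => hC i j t ht x)
    intro x i
    have h1 := hu.momentum t ht x i
    have h2 := hv.momentum t ht x i
    simp only [cpt] at h1 h2 ⊢
    linear_combination h1 - h2
  have hanti : AntitoneOn (fun t => Real.exp (-(6 * C) * t) * E t) (Icc 0 T) := by
    have hd : ∀ t ∈ Ioo 0 T, HasDerivAt (fun t => Real.exp (-(6 * C) * t) * E t)
        (Real.exp (-(6 * C) * t) * (-(6 * C)) * E t
          + Real.exp (-(6 * C) * t) * ∫ x, G t x) t := by
      intro t ht
      have h1 : HasDerivAt (fun t => -(6 * C) * t) (-(6 * C)) t := by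
        simpa using (hasDerivAt_id t).const_mul (-(6 * C))
      exact h1.exp.mul (hEd t ht)
    refine antitoneOn_of_deriv_nonpos (convex_Icc 0 T) ?_ ?_ ?_
    · exact (by fun_prop : Continuous fun t => Real.exp (-(6 * C) * t)).continuousOn.mul hEc
    · rw [interior_Icc]
      exact fun t ht => (hd t ht).differentiableAt.differentiableWithinAt
    · rw [interior_Icc]
      intro t ht
      rw [(hd t ht).deriv]
      have := hineq t (Ioo_subset_Icc_self ht)
      have hpos := Real.exp_pos (-(6 * C) * t)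
      nlinarith
  intro t ht
  have hE0 : E 0 = 0 := by simp [hE, hu.initial, hv.initial]
  have h1 := hanti (left_mem_Icc.2 hT.le) ht ht.1
  simp only [hE0, mul_zero] at h1
  have hEt : E t ≤ 0 := by
    have hpos := Real.exp_pos (-(6 * C) * t)
    by_contra hcon
    have := mul_pos hpos (not_le.1 hcon)
    linarith
  funext x i
  by_contra hne
  have hx : (fun x => ∑ i, (u t x i - v t x i) ^ 2) x ≠ 0 := by
    have : 0 < ∑ i, (u t x i - v t x i) ^ 2 :=
      Finset.sum_pos' (fun _ _ => sq_nonneg _)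
        ⟨i, Finset.mem_univ i, by
          have : u t x i - v t x i ≠ 0 := sub_ne_zero.2 (Ne.symm hne)
          positivity⟩
    exact this.ne'
  have := Continuous.integral_pos_of_hasCompactSupport_nonneg_nonzero (μ := (volume : Measure T3))
    (hec.slice ht) (HasCompactSupport.of_compactSpace _)
    (fun x => Finset.sum_nonneg fun _ _ => sq_nonneg _) hx
  exact absurd this (not_lt.2 hEt)

theorem classical_unique {ν T : ℝ} (hν : 0 ≤ ν) (hT : 0 < T) {f u v : ℝ → T3 → Fin 3 → ℝ}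
    {p q : ℝ → T3 → ℝ} (hu : IsClassical ν f T u p) (hv : IsClassical ν f T v q) :
    ∀ t ∈ Icc 0 T, v t = u t ∧ q t = p t := by
  have hvu := velocity_unique hν hT hu hv
  intro t ht
  refine ⟨hvu t ht, ?_⟩
  have hgrad : ∀ i x, pd i (fun y => q t y - p t y) x = 0 := by
    intro i x
    rw [pd_sub (hv.pressure_diff t ht) (hu.pressure_diff t ht)]
    have h1 := hu.momentum t ht x i
    have h2 := hv.momentum t ht x i
    have h3 : cpt v i t = cpt u i t := by
      funext y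
      simp [cpt, hvu t ht]
    have h4 : dt T (cpt v i) t x = dt T (cpt u i) t x := by
      unfold dt
      refine derivWithin_congr (fun s hs => ?_) ?_
      · simp [cpt, hvu s hs]
      · simp [cpt, hvu t ht]
    rw [h3, h4, hvu t ht] at h2
    linarith
  have hc := eq_const_of_pd_eq_zero ((hv.c1_p ht).sub (hu.c1_p ht)).diff hgrad
  have hint : ∫ x, (q t x - p t x) = 0 := by
    rw [integral_sub (integrable_of_continuous (hv.c1_p ht).cont)
      (integrable_of_continuous (hu.c1_p ht).cont), hu.mean_zero t ht, hv.mean_zero t ht, sub_zero]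
  have hfun : (fun x => q t x - p t x) = fun _ => q t 0 - p t 0 := funext hc
  rw [hfun, integral_const] at hint
  have hvol : (volume : Measure T3).real univ ≠ 0 := by
    have : 0 < (volume : Measure T3).real univ := by
      apply ENNReal.toReal_pos
      · exact (isOpen_univ.measure_pos _ univ_nonempty).ne'
      · exact measure_ne_top _ _
    exact this.ne'
  have h0 : q t 0 - p t 0 = 0 := by
    simpa [hvol] using hint
  funext x
  have := hc x
  linarith

end Vale.Agent.P113
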